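import Vale.Agent.P095.All.Defs

/-!
# P095: the row elements for actions of amenable groups

`RowWTarget` is the row whose two marks are exchanged by a fixed element, `RowLTarget` the row whose
two marks are letters in auxiliary banks, corrected by a guard.
-/

namespace Vale.Agent.P095.All

open Vale.Agent.P101.KR Vale.Agent.P095.Amen

noncomputable section

/-- The row, marks exchanged by a fixed element `W`: `W` carries the mark `m` to an orthogonal one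
and both lie under `e`. -/
def RowWTarget : Prop :=
  ∀ (G : Type) [Group G] (S : Finset G), IsAmenable G → ∀ ε : ℝ, 0 < ε → ∃ n : ℕ, 0 < n ∧
    ∀ (F : Type) [CStarAlgebra F] (β : G → F ≃⋆ₐ[ℂ] F), (∀ g h x, β (g * h) x = β g (β h x)) →
    ∀ t : Set F, t.Countable → (∀ g, β g '' t = t) →
    ∀ s s' m e W x : Cl t,
      (∀ g, ∀ u ∈ ({s, s', m, e, W} : Set (Cl t)), β g u = u) →
      star (s : F) = s → star (s' : F) = s' → ‖s‖ ≤ 1 → ‖s'‖ ≤ 1 → ‖x‖ ≤ 1 →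
      Commute s s' → s' * s = s → s' * x = 0 → x * s' = x → Commute W s' →
      m * x = x → star W * (W * m) = m → star m * (W * m) = 0 →
      e * m = m → e * (W * m) = W * m → star x * x * s = s →
      ∀ (κ : Copies' β t (Fin n)) (U : Fin n → F),
        (∀ i g, β g (U i) = U i) →
        (∀ i j, Commute (U i) (κ.hom j s) ∧ Commute (U i) (κ.hom j s')) →
        (∀ i, star (U i) * (U i * κ.hom i e) = κ.hom i e) →
        ∃ y : F, y ∈ Cl ((⋃ i, Set.range (κ.hom i)) ∪ Set.range U) ∧ ‖y‖ ≤ 1 ∧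
          (∀ g ∈ S, ‖β g y - y‖ ≤ ε) ∧ y * y = 0 ∧
          y * (List.ofFn fun i => κ.hom i s').prod = y ∧
          (List.ofFn fun i => κ.hom i s').prod * y = 0 ∧
          SqLe ((1 / 2 : ℝ) • ((List.ofFn fun i => κ.hom i s).prod *
            (List.ofFn fun i => κ.hom i s).prod)) (star y * y) ∧
          ∀ P : F, (∀ i, P * (U i * κ.hom i e) = U i * κ.hom i e) → P * y = y

/-- The row, marks in auxiliary banks: `a`, `b` are orthogonal with traces within `θ` of `b₀`, and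
`W` is a guard, small in every trace relative to any `R` below the source, and not hiding it. -/
def RowLTarget : Prop :=
  ∀ (G : Type) [Group G] (S : Finset G), IsAmenable G → ∀ ε b₀ γ : ℝ, 0 < ε → 0 < b₀ → b₀ ≤ 1 / 2 →
    0 < γ → ∃ (n : ℕ) (θ : ℝ), 0 < n ∧ 0 < θ ∧
    ∀ (F : Type) [CStarAlgebra F] (β : G → F ≃⋆ₐ[ℂ] F), (∀ g h x, β (g * h) x = β g (β h x)) →
    ∀ t : Set F, t.Countable → (∀ g, β g '' t = t) →
    ∀ t₂ : Set F, t₂.Countable → (∀ g, β g '' t₂ = t₂) →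
    ∀ s s' e x : Cl t,
      (∀ g, ∀ u ∈ ({s, s', e} : Set (Cl t)), β g u = u) →
      star (s : F) = s → star (s' : F) = s' → ‖s‖ ≤ 1 → ‖s'‖ ≤ 1 → ‖x‖ ≤ 1 →
      Commute s s' → s' * s = s → s' * x = 0 → x * s' = x → e * x = x → star x * x * s = s →
    ∀ a b fa fb fc : Cl t₂,
      (∀ g, ∀ u ∈ ({a, b} : Set (Cl t₂)), β g u = u) →
      SqLe 0 (a : F) → SqLe (a : F) 1 → SqLe 0 (b : F) → SqLe (b : F) 1 → a * b = 0 →
      (∀ τ : Cl t₂ →ₗ[ℂ] ℂ, IsTrace (Cl t₂) τ →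
        |(τ a).re - b₀| ≤ θ ∧ |(τ b).re - b₀| ≤ θ) →
      a * fa = fa → b * fa = 0 → a * fb = 0 → b * fb = fb → a * fc = 0 → b * fc = 0 →
      (∀ f ∈ ({fa, fb, fc} : Set (Cl t₂)),
        ∃ (K : ℕ) (w : Fin K → Cl t₂), ∑ i, star (w i) * (star f * f) * w i = 1) →
      ∀ (κ : Copies' β t (Fin n)) (μ : Copies' β t₂ (Fin n)),
        (∀ i j u v, Commute (κ.hom i u) (μ.hom j v)) →
        ∃ y W h : F,
          y ∈ Cl ((⋃ i, Set.range (κ.hom i)) ∪ ⋃ i, Set.range (μ.hom i)) ∧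
          W ∈ Cl ((⋃ i, Set.range (κ.hom i)) ∪ ⋃ i, Set.range (μ.hom i)) ∧
          h ∈ Cl ((⋃ i, Set.range (κ.hom i)) ∪ ⋃ i, Set.range (μ.hom i)) ∧
          SqLe 0 W ∧ SqLe W 1 ∧ star h = h ∧ h * h = 1 - W ∧
          Commute W ((List.ofFn fun i => κ.hom i s').prod) ∧
          Commute h ((List.ofFn fun i => κ.hom i s').prod) ∧
          ‖y‖ ≤ 1 ∧ (∀ g ∈ S, ‖β g y - y‖ ≤ ε ∧ ‖β g W - W‖ ≤ ε ∧ ‖β g h - h‖ ≤ ε) ∧
          y * y = 0 ∧
          y * (List.ofFn fun i => κ.hom i s').prod = y ∧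
          (List.ofFn fun i => κ.hom i s').prod * y = 0 ∧
          SqLe ((1 / 2 : ℝ) • (h * ((List.ofFn fun i => κ.hom i s).prod *
            (List.ofFn fun i => κ.hom i s).prod) * h)) (star y * y + ε • (1 : F)) ∧
          (∀ P : F, (∀ i, P * κ.hom i e = κ.hom i e) → P * y = y) ∧
          ∀ R : F, star R = R → R * (List.ofFn fun i => κ.hom i s).prod = R →
            (∀ i v, Commute R (μ.hom i v)) →
            (∀ u : Set F, u.Countable → ∀ (hR : R ∈ Cl u) (hW : W ∈ Cl u),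
              (∀ i v, κ.hom i v ∈ Cl u) → (∀ i v, μ.hom i v ∈ Cl u) →
              ∀ τ : Cl u →ₗ[ℂ] ℂ, IsTrace (Cl u) τ →
                (τ (⟨R, hR⟩ * ⟨W, hW⟩ * ⟨R, hR⟩)).re ≤ γ * (τ (⟨R, hR⟩ * ⟨R, hR⟩)).re) ∧
            ∃ (K : ℕ) (v : Fin K → F), ∑ i, star (v i) * v i = 1 ∧
              SqLe ((1 / 2 : ℝ) • (R * R)) (∑ i, star (v i) * (R * (1 - W) * R) * v i)

end

end Vale.Agent.P095.All
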