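import Vale.Agent.P095.All.Row.Common
import Vale.Agent.P095.All.RowMat.Letters

/-!
# P095 row elements for amenable groups: the marks carrying letters

The two marks of a position are the letters times one mark; `dev` is the error of the corrected mean
and `bad` collects its squares against the source.
-/

namespace Vale.Agent.P095.All.Row

open Finset Vale.Agent.P101.KR Vale.Agent.P095.Amen Vale.Agent.P095.Amen.Row
  Vale.Agent.P095.All Vale.Agent.P095.All.RowMat

noncomputable section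

variable {G : Type} [Group G] {F : Type} [CStarAlgebra F]

/-- The marks and the roots of the letters at every group element. -/
structure LData (β : G → F ≃⋆ₐ[ℂ] F) (t t₂ : Set F) (n : ℕ) where
  s : Cl t
  s' : Cl t
  e : Cl t
  xs : G → Cl t
  q : Bool → Cl t₂
  κ : Copies' β t (Fin n)
  μ : Copies' β t₂ (Fin n)
  cross : ∀ i j u v, Commute (κ.hom i u) (μ.hom j v)
  fix_s : ∀ g, β g s = s
  fix_s' : ∀ g, β g s' = s'
  move : ∀ g a, β g (xs a) = xs (g * a)
  fix_q : ∀ c g, β g (q c) = q c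
  star_s : star s = s
  star_s' : star s' = s'
  norm_s : ‖s‖ ≤ 1
  norm_xs : ∀ g, ‖xs g‖ ≤ 1
  comm : Commute s s'
  s'_s : s' * s = s
  s'_xs : ∀ g, s' * xs g = 0
  xs_s' : ∀ g, xs g * s' = xs g
  e_xs : ∀ g, e * xs g = xs g
  sq : ∀ g, star (xs g) * xs g * s = s
  star_q : ∀ c, star (q c) = q c
  norm_q : ∀ c, ‖q c * q c‖ ≤ 1
  orth : q true * q false = 0

namespace LData

variable {β : G → F ≃⋆ₐ[ℂ] F} {t t₂ : Set F} {n : ℕ} (E : LData β t t₂ n)

/-- The algebra of one position. -/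
def alg (i : Fin n) : StarSubalgebra ℂ F :=
  StarAlgebra.adjoin ℂ (Set.range (E.κ.hom i) ∪ Set.range (E.μ.hom i))

theorem κ_mem (i : Fin n) (u : Cl t) : E.κ.hom i u ∈ E.alg i :=
  StarAlgebra.subset_adjoin ℂ _ (Or.inl ⟨u, rfl⟩)

theorem μ_mem (i : Fin n) (u : Cl t₂) : E.μ.hom i u ∈ E.alg i :=
  StarAlgebra.subset_adjoin ℂ _ (Or.inr ⟨u, rfl⟩)

theorem alg_comm (i j : Fin n) (hij : i ≠ j) : ∀ x ∈ E.alg i, ∀ y ∈ E.alg j, Commute x y := by
  have hgen : ∀ x ∈ Set.range (E.κ.hom i) ∪ Set.range (E.μ.hom i),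
      ∀ y ∈ Set.range (E.κ.hom j) ∪ Set.range (E.μ.hom j), Commute x y := by
    rintro x (⟨u, rfl⟩ | ⟨u, rfl⟩) y (⟨v, rfl⟩ | ⟨v, rfl⟩)
    · exact E.κ.comm i j hij u v
    · exact E.cross i j u v
    · exact (E.cross j i v u).symm
    · exact E.μ.comm i j hij u v
  have hstar : ∀ x ∈ Set.range (E.κ.hom i) ∪ Set.range (E.μ.hom i),
      star x ∈ Set.range (E.κ.hom i) ∪ Set.range (E.μ.hom i) := by
    rintro x (⟨u, rfl⟩ | ⟨u, rfl⟩)
    · exact Or.inl ⟨star u, map_star _ _⟩
    · exact Or.inr ⟨star u, map_star _ _⟩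
  have h1 : E.alg j ≤ StarSubalgebra.centralizer ℂ
      (Set.range (E.κ.hom i) ∪ Set.range (E.μ.hom i)) := StarAlgebra.adjoin_le fun y hy => by
    rw [SetLike.mem_coe, StarSubalgebra.mem_centralizer_iff]
    exact fun x hx => ⟨(hgen x hx y hy).eq, (hgen _ (hstar x hx) y hy).eq⟩
  intro x hx y hy
  have h2 : E.alg i ≤ StarSubalgebra.centralizer ℂ (E.alg j : Set F) :=
    StarAlgebra.adjoin_le fun x hx => by
      rw [SetLike.mem_coe, StarSubalgebra.mem_centralizer_iff]
      intro y hy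
      exact ⟨(((StarSubalgebra.mem_centralizer_iff ℂ).1 (h1 hy) x hx).1).symm,
        (((StarSubalgebra.mem_centralizer_iff ℂ).1 (h1 (star_mem hy)) x hx).1).symm⟩
  exact ((((StarSubalgebra.mem_centralizer_iff ℂ).1 (h2 hx)) y hy).1).symm

theorem s'_κ_mul (i : Fin n) (v : Cl t₂) (g : G) :
    E.κ.hom i E.s' * (E.μ.hom i v * E.κ.hom i (E.xs g)) = 0 := by
  rw [← mul_assoc, (E.cross i i E.s' v).eq, mul_assoc, ← map_mul, E.s'_xs, map_zero, mul_zero]

/-- The marks with letters. -/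
def marks : Marks F G n where
  A := E.alg
  comm := E.alg_comm
  va g i := E.μ.hom i (E.q true) * E.κ.hom i (E.xs g)
  vb g i := E.μ.hom i (E.q false) * E.κ.hom i (E.xs g)
  s i := E.κ.hom i E.s
  s' i := E.κ.hom i E.s'
  U _ := 1
  va_mem g i := mul_mem (E.μ_mem i _) (E.κ_mem i _)
  vb_mem g i := mul_mem (E.μ_mem i _) (E.κ_mem i _)
  s_mem i := E.κ_mem i _
  s'_mem i := E.κ_mem i _
  star_s i := (map_star _ _).symm.trans (congrArg _ E.star_s)
  star_s' i := (map_star _ _).symm.trans (congrArg _ E.star_s')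
  comm_ss' i := E.comm.map (E.κ.hom i)
  s'_s i := by rw [← map_mul, E.s'_s]
  s'_va g i := E.s'_κ_mul i _ g
  va_s' g i := by rw [mul_assoc, ← map_mul, E.xs_s']
  s'_vb g i := E.s'_κ_mul i _ g
  vb_s' g i := by rw [mul_assoc, ← map_mul, E.xs_s']
  va_vb g h i := by
    rw [star_mul, ← map_star (E.μ.hom i), E.star_q, mul_assoc, ← mul_assoc (E.μ.hom i _),
      ← map_mul, E.orth, map_zero, zero_mul, mul_zero]
  U_s' _ _ := Commute.one_left _
  U_va g i := by rw [star_one, one_mul, one_mul]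
  U_vb g i := by rw [star_one, one_mul, one_mul]

/-- The marks without letters, for the coefficients. -/
def plain : Marks F G n where
  A := E.alg
  comm := E.alg_comm
  va g i := E.κ.hom i (E.xs g)
  vb _ _ := 0
  s i := E.κ.hom i E.s
  s' i := E.κ.hom i E.s'
  U _ := 1
  va_mem g i := E.κ_mem i _
  vb_mem g i := zero_mem _
  s_mem i := E.κ_mem i _
  s'_mem i := E.κ_mem i _
  star_s i := (map_star _ _).symm.trans (congrArg _ E.star_s)
  star_s' i := (map_star _ _).symm.trans (congrArg _ E.star_s')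
  comm_ss' i := E.comm.map (E.κ.hom i)
  s'_s i := by rw [← map_mul, E.s'_s]
  s'_va g i := by rw [← map_mul, E.s'_xs, map_zero]
  va_s' g i := by rw [← map_mul, E.xs_s']
  s'_vb g i := mul_zero _
  vb_s' g i := zero_mul _
  va_vb g h i := mul_zero _
  U_s' _ _ := Commute.one_left _
  U_va g i := by rw [star_one, one_mul, one_mul]
  U_vb g i := by rw [star_one, one_mul, one_mul]

/-- The inner products of two marks without letters. -/
def z (g h : G) (i : Fin n) : F := E.plain.za g h i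

theorem z_eq (g h : G) (i : Fin n) : E.z g h i = E.κ.hom i (star (E.xs g) * E.xs h) := by
  rw [map_mul, map_star]; rfl

/-- The two letters. -/
def let' (c : Bool) : Cl t₂ := E.q c * E.q c

/-- The inner products of the marks of one letter. -/
def zl (c : Bool) (g h : G) (i : Fin n) : F := E.μ.hom i (E.let' c) * E.z g h i

theorem z_comm_μ (g h : G) (i j : Fin n) (v : Cl t₂) : Commute (E.z g h i) (E.μ.hom j v) := by
  rw [z_eq]; exact E.cross i j _ v

theorem za_eq (g h : G) : E.marks.za g h = E.zl true g h := by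
  funext i
  rw [zl, z_eq, let', map_mul, map_mul, map_star]
  show star (E.μ.hom i (E.q true) * E.κ.hom i (E.xs g)) * (E.μ.hom i (E.q true) * E.κ.hom i (E.xs h)) = _
  rw [star_mul, ← map_star, ← map_star, E.star_q, mul_assoc, ← mul_assoc (E.μ.hom i (E.q true)),
    ← mul_assoc, ((E.cross i i (star (E.xs g)) (E.q true)).mul_right
      (E.cross i i (star (E.xs g)) (E.q true))).eq, mul_assoc]

theorem zb_eq (g h : G) : E.marks.zb g h = E.zl false g h := by
  funext i
  rw [zl, z_eq, let', map_mul, map_mul, map_star]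
  show star (E.μ.hom i (E.q false) * E.κ.hom i (E.xs g)) * (E.μ.hom i (E.q false) * E.κ.hom i (E.xs h)) = _
  rw [star_mul, ← map_star, ← map_star, E.star_q, mul_assoc, ← mul_assoc (E.μ.hom i (E.q false)),
    ← mul_assoc, ((E.cross i i (star (E.xs g)) (E.q false)).mul_right
      (E.cross i i (star (E.xs g)) (E.q false))).eq, mul_assoc]

theorem za_diag (g : G) (i : Fin n) : E.plain.za g g i * E.plain.s i = E.plain.s i := by
  show star (E.κ.hom i (E.xs g)) * E.κ.hom i (E.xs g) * E.κ.hom i E.s = E.κ.hom i E.s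
  rw [← map_star, ← map_mul, ← map_mul, E.sq]

theorem norm_κ_le (i : Fin n) {u : Cl t} (hu : ‖u‖ ≤ 1) : ‖E.κ.hom i u‖ ≤ 1 :=
  (NonUnitalStarAlgHom.norm_apply_le _ u).trans hu

theorem norm_q_le (c : Bool) : ‖E.q c‖ ≤ 1 := by
  have h := CStarRing.norm_star_mul_self (x := E.q c)
  rw [E.star_q] at h
  nlinarith [E.norm_q c, norm_nonneg (E.q c)]

theorem norm_plain_va (g : G) (i : Fin n) : ‖E.plain.va g i‖ ≤ 1 := E.norm_κ_le i (E.norm_xs g)

theorem norm_marks_va (g : G) (i : Fin n) : ‖E.marks.va g i‖ ≤ 1 :=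
  (norm_mul_le _ _).trans (mul_le_one₀ ((NonUnitalStarAlgHom.norm_apply_le _ _).trans
    (E.norm_q_le true)) (norm_nonneg _) (E.norm_κ_le i (E.norm_xs g)))

theorem norm_marks_vb (g : G) (i : Fin n) : ‖E.marks.vb g i‖ ≤ 1 :=
  (norm_mul_le _ _).trans (mul_le_one₀ ((NonUnitalStarAlgHom.norm_apply_le _ _).trans
    (E.norm_q_le false)) (norm_nonneg _) (E.norm_κ_le i (E.norm_xs g)))

theorem norm_z_le (g h : G) (i : Fin n) : ‖E.z g h i‖ ≤ 1 :=
  E.plain.norm_za_le E.norm_plain_va g h i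

theorem norm_zl_le (c : Bool) (g h : G) (i : Fin n) : ‖E.zl c g h i‖ ≤ 1 :=
  (norm_mul_le _ _).trans (mul_le_one₀ ((NonUnitalStarAlgHom.norm_apply_le _ _).trans (E.norm_q c))
    (norm_nonneg _) (E.norm_z_le g h i))

theorem z_mem_alg (g h : G) (i : Fin n) : E.z g h i ∈ E.alg i := E.plain.za_mem g h i

theorem zl_mem_alg (c : Bool) (g h : G) (i : Fin n) : E.zl c g h i ∈ E.alg i :=
  mul_mem (E.μ_mem i _) (E.z_mem_alg g h i)

variable (b₀ : ℝ)

/-- The error of the corrected mean. -/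
def dev (c : Bool) (g h : G) : F := letterErr E.μ.hom (E.let' c) b₀ (E.z g h)

theorem dev_eq (c : Bool) (g h : G) :
    E.dev b₀ c g h = b₀⁻¹ • mean (E.zl c g h) - mean (E.z g h) := by
  simp only [dev, letterErr, mean, zl, sub_mul, one_mul, sum_sub_distrib, smul_sub, smul_mul_assoc,
    ← smul_sum]
  rw [smul_comm]

theorem dev_comm_s' (c : Bool) (g h : G) (j : Fin n) : Commute (E.dev b₀ c g h) (E.marks.s' j) := by
  refine (Commute.sum_left _ _ _ fun i _ => ?_).smul_left _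
  have h1 : Commute (E.μ.hom i (E.let' c)) (E.marks.s' j) := (E.cross j i E.s' _).symm
  exact ((h1.smul_left _).sub_left (Commute.one_left _)).mul_left (E.plain.za_s' g h i j)

theorem dev_mem (A : StarSubalgebra ℂ F) (hκ : ∀ i v, E.κ.hom i v ∈ A) (hμ : ∀ i v, E.μ.hom i v ∈ A)
    (c : Bool) (g h : G) : E.dev b₀ c g h ∈ A :=
  real_smul_mem A _ (sum_mem fun i _ => mul_mem
    (sub_mem (real_smul_mem A _ (hμ i _)) (one_mem A)) (by rw [z_eq]; exact hκ i _))

theorem p_mem (A : StarSubalgebra ℂ F) (hκ : ∀ i v, E.κ.hom i v ∈ A) : E.marks.p ∈ A :=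
  prodS_mem' A _ (fun i => hκ i _) _

theorem map_z (k g h : G) (i : Fin n) : β k (E.z g h i) = E.z (k * g) (k * h) i := by
  show β k (star (E.κ.hom i (E.xs g)) * E.κ.hom i (E.xs h))
    = star (E.κ.hom i (E.xs (k * g))) * E.κ.hom i (E.xs (k * h))
  rw [map_mul, map_star, E.κ.equiv i k _ _ (E.move k g), E.κ.equiv i k _ _ (E.move k h)]

theorem map_dev (c : Bool) (k g h : G) : β k (E.dev b₀ c g h) = E.dev b₀ c (k * g) (k * h) := by
  have hq : β k (E.let' c : F) = E.let' c := by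
    show β k ((E.q c : F) * E.q c) = (E.q c : F) * E.q c
    rw [map_mul, E.fix_q]
  show (β k).toStarAlgHom ((n : ℝ)⁻¹ • _) = (n : ℝ)⁻¹ • _
  rw [map_smul_real, map_sum]
  refine congrArg _ (sum_congr rfl fun i _ => ?_)
  rw [map_mul, map_sub, map_smul_real, map_one]
  exact congrArg₂ (· * ·) (congrArg (fun u => b₀⁻¹ • u - 1) (E.μ.equiv i k _ _ hq)) (E.map_z k g h i)

theorem map_p (k : G) : β k E.marks.p = E.marks.p :=
  Row.map_p E.marks (β k).toStarAlgHom fun i => E.κ.equiv i k _ _ (E.fix_s k)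

theorem map_p' (k : G) : β k E.marks.p' = E.marks.p' :=
  Row.map_p' E.marks (β k).toStarAlgHom fun i => E.κ.equiv i k _ _ (E.fix_s' k)

/-- One summand of what the guard hides. -/
def badT (x : G × G × Bool) : F :=
  star (E.dev b₀ x.2.2 x.1 x.2.1 * E.marks.p) * (E.dev b₀ x.2.2 x.1 x.2.1 * E.marks.p)

theorem map_badT (k : G) (x : G × G × Bool) :
    β k (E.badT b₀ x) = E.badT b₀ (k * x.1, k * x.2.1, x.2.2) := by
  rw [badT, badT, map_mul, map_star, map_mul, E.map_p, E.map_dev]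

theorem p_comm_p' : Commute E.marks.p E.marks.p' := by
  refine commute_prodS fun j _ => (commute_prodS fun i _ => ?_).symm
  rcases eq_or_ne i j with rfl | hij
  · exact (E.marks.comm_ss' i).symm
  · exact (E.marks.commF E.marks.s_mem E.marks.s'_mem hij).symm

theorem badT_comm_p' (x : G × G × Bool) : Commute (E.badT b₀ x) E.marks.p' := by
  have h1 : Commute (E.dev b₀ x.2.2 x.1 x.2.1 * E.marks.p) E.marks.p' :=
    (commute_prodS fun j _ => E.dev_comm_s' b₀ _ _ _ j).mul_left E.p_comm_p'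
  have h2 := h1.star_star
  rw [E.marks.star_p'] at h2
  exact h2.mul_left h1

theorem R_badT_R {R : F} (hR : star R = R) (hRp : R * E.marks.p = R) (x : G × G × Bool) :
    R * E.badT b₀ x * R = R * star (E.dev b₀ x.2.2 x.1 x.2.1) * E.dev b₀ x.2.2 x.1 x.2.1 * R := by
  have hpR : E.marks.p * R = R := by
    have := congrArg star hRp
    rwa [star_mul, E.marks.star_p, hR] at this
  rw [badT, star_mul, E.marks.star_p]
  calc R * (E.marks.p * star (E.dev b₀ x.2.2 x.1 x.2.1) * (E.dev b₀ x.2.2 x.1 x.2.1 * E.marks.p)) * R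
      = R * E.marks.p * star (E.dev b₀ x.2.2 x.1 x.2.1) *
          E.dev b₀ x.2.2 x.1 x.2.1 * (E.marks.p * R) := by simp only [mul_assoc]
    _ = _ := by rw [hRp, hpR]

/-- What the guard hides. -/
def bad [DecidableEq G] (Wd : Finset G) : F :=
  ∑ x ∈ Wd ×ˢ Wd ×ˢ (univ : Finset Bool), E.badT b₀ x

theorem map_bad [DecidableEq G] (Wd : Finset G) (k : G) :
    β k (E.bad b₀ Wd) =
      ∑ x ∈ Wd ×ˢ Wd ×ˢ (univ : Finset Bool), E.badT b₀ (k * x.1, k * x.2.1, x.2.2) := by
  rw [bad, map_sum]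
  exact sum_congr rfl fun x _ => E.map_badT b₀ k x

end LData

end

end Vale.Agent.P095.All.Row
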