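import Vale.Agent.P095.All.Row.Vect
import Vale.Agent.P095.All.Row.LetterData

/-!
# P095 row elements for amenable groups: the square of the element of letters against a guard

With `v = p h` small under every error of the corrected means, the square of the element against `h`
is the form of the means without letters.
-/

namespace Vale.Agent.P095.All.Row

open Finset Vale.Agent.P101.KR Vale.Agent.P095.Amen Vale.Agent.P095.Amen.Row
  Vale.Agent.P095.All Vale.Agent.P095.All.RowMat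

noncomputable section

variable {G : Type} [Group G] [DecidableEq G] {F : Type} [CStarAlgebra F]
  {β : G → F ≃⋆ₐ[ℂ] F} {t t₂ : Set F} {n : ℕ}

namespace LData

variable (E : LData β t t₂ n) {Sg : Finset G} {δ b₀ : ℝ} (P : Params Sg δ b₀⁻¹)

/-- The three means: without a letter and corrected by a letter. -/
def zo : Option Bool → P.Wd → P.Wd → F
  | none => E.plain.zA P.Wd
  | some c => fun g h => b₀⁻¹ • mean (E.zl c g h)

/-- The kernels of the three means. -/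
def ko (o : Option Bool) : Matrix P.Wd P.Wd F := kerMat P.N P.a (E.zo P o)

/-- The coefficients. -/
def co (v : P.Wd → ℝ) : Matrix P.Wd P.Wd F := coef P.f v (E.ko P none)

theorem zo_sub (c : Bool) (g h : P.Wd) :
    E.zo P (some c) g h - E.zo P none g h = E.dev b₀ c g h := (E.dev_eq b₀ c g h).symm

/-- The unscaled family behind a mean. -/
def fam : Option Bool → G → G → Fin n → F
  | none => E.z
  | some c => E.zl c

omit [DecidableEq G] in
theorem fam_mem (o : Option Bool) (g h : G) (i : Fin n) : E.fam o g h i ∈ E.alg i := by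
  cases o
  exacts [E.z_mem_alg g h i, E.zl_mem_alg _ g h i]

omit [DecidableEq G] in
theorem norm_fam_le (o : Option Bool) (g h : G) (i : Fin n) : ‖E.fam o g h i‖ ≤ 1 := by
  cases o
  exacts [E.norm_z_le g h i, E.norm_zl_le _ g h i]

theorem zo_eq (hB : 1 ≤ b₀⁻¹) (o : Option Bool) : ∃ r : ℝ, 0 ≤ r ∧ r ≤ b₀⁻¹ ∧
    ∀ g h : P.Wd, E.zo P o g h = r • mean (E.fam o g h) := by
  cases o
  · exact ⟨1, zero_le_one, hB, fun g h => (one_smul ℝ _).symm⟩
  · exact ⟨b₀⁻¹, zero_le_one.trans hB, le_rfl, fun g h => rfl⟩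

theorem norm_zo_le (hB : 1 ≤ b₀⁻¹) (o : Option Bool) (g h : P.Wd) : ‖E.zo P o g h‖ ≤ b₀⁻¹ := by
  obtain ⟨r, hr, hr', e⟩ := E.zo_eq P hB o
  rw [e, norm_smul, Real.norm_of_nonneg hr]
  exact (mul_le_of_le_one_right hr (norm_mean_le (E.norm_fam_le o g h))).trans hr'

theorem comm_zo (hB : 1 ≤ b₀⁻¹) (o o' : Option Bool) (g h g' h' : P.Wd) :
    ‖E.zo P o g h * E.zo P o' g' h' - E.zo P o' g' h' * E.zo P o g h‖
      ≤ b₀⁻¹ * b₀⁻¹ * (2 / n) := by
  obtain ⟨r, hr, hr', e⟩ := E.zo_eq P hB o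
  obtain ⟨r₁, hr₁, hr₁', e₁⟩ := E.zo_eq P hB o'
  rw [e, e₁, smul_mul_smul_comm, smul_mul_smul_comm, mul_comm r₁ r, ← smul_sub, norm_smul,
    Real.norm_of_nonneg (mul_nonneg hr hr₁)]
  exact mul_le_mul (mul_le_mul hr' hr₁' hr₁ (hr.trans hr'))
    (norm_comm_mean (E.norm_fam_le o g h) (E.norm_fam_le o' g' h') fun i j hij =>
      E.alg_comm i j hij _ (E.fam_mem o g h i) _ (E.fam_mem o' g' h' j))
    (norm_nonneg _) (mul_nonneg (hr.trans hr') (hr.trans hr'))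

theorem norm_ko_le (hB : 1 ≤ b₀⁻¹) (o : Option Bool) (g h : P.Wd) : ‖E.ko P o g h‖ ≤ P.L :=
  (P.lip F (0 : F) 0 le_rfl P.w P.w_le _ (E.zo P o)
    (fun g h => ⟨E.norm_zo_le P hB o g h, E.norm_zo_le P hB o g h, by simp⟩) g h).1.norm

theorem norm_co_le (hB : 1 ≤ b₀⁻¹) {v : P.Wd → ℝ} (hv : ∀ g, v g ≤ 1) (g h : P.Wd) :
    ‖E.co P v g h‖ ≤ P.L :=
  norm_coef_zA_le E.plain P hB E.norm_plain_va hv g h

theorem comm_ko_zo (hB : 1 ≤ b₀⁻¹) (o o' : Option Bool) (g h g' h' : P.Wd) :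
    ‖E.ko P o g h * E.zo P o' g' h' - E.zo P o' g' h' * E.ko P o g h‖
      ≤ P.L * (b₀⁻¹ * b₀⁻¹ * (2 / n)) := by
  rw [norm_sub_rev]
  exact (P.lip F (E.zo P o' g' h') _ (by positivity) P.w P.w_le _ (E.zo P o) (fun a b =>
    ⟨E.norm_zo_le P hB o a b, E.norm_zo_le P hB o a b, E.comm_zo P hB o' o g' h' a b⟩) g h).1.near

theorem comm_ko (hB : 1 ≤ b₀⁻¹) (o o' : Option Bool) (g h g' h' : P.Wd) :
    ‖E.ko P o g h * E.ko P o' g' h' - E.ko P o' g' h' * E.ko P o g h‖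
      ≤ P.L * (P.L * (b₀⁻¹ * b₀⁻¹ * (2 / n))) :=
  (P.lip F (E.ko P o g h) _ (by have := P.L_nonneg; positivity) P.w P.w_le _ (E.zo P o')
    (fun a b => ⟨E.norm_zo_le P hB o' a b, E.norm_zo_le P hB o' a b,
      E.comm_ko_zo P hB o o' g h a b⟩) g' h').1.near

theorem comm_ko_co (hB : 1 ≤ b₀⁻¹) (o : Option Bool) {v : P.Wd → ℝ} (hv : ∀ g, v g ≤ 1)
    (g h g' h' : P.Wd) :
    ‖E.ko P o g h * E.co P v g' h' - E.co P v g' h' * E.ko P o g h‖
      ≤ P.L * (P.L * (b₀⁻¹ * b₀⁻¹ * (2 / n))) :=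
  (P.lip F (E.ko P o g h) _ (by have := P.L_nonneg; positivity) v hv _ (E.zo P none)
    (fun a b => ⟨E.norm_zo_le P hB none a b, E.norm_zo_le P hB none a b,
      E.comm_ko_zo P hB o none g h a b⟩) g' h').2.near

theorem co_comm_s' (v : P.Wd → ℝ) (g h : P.Wd) (j : Fin n) :
    Commute (E.co P v g h) (E.marks.s' j) := coef_comm_s' E.plain P.Wd _ _ _ _ g h j

/-- The amplitudes: the squares are the kernel coefficients scaled by the powers of `1 / b₀`. -/
def amp (r : ℕ) : ℝ := Real.sqrt (P.a r * b₀⁻¹ ^ (r + 1))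

theorem amp_sq (hb : 0 < b₀) (r : ℕ) : amp P r ^ 2 = P.a r * b₀⁻¹ ^ (r + 1) :=
  Real.sq_sqrt (mul_nonneg (P.a_nonneg r) (by positivity))

theorem sum_amp_le (hb : 0 < b₀) (hB : 1 ≤ b₀⁻¹) :
    ∑ r ∈ Finset.range P.N, amp P r ^ 2 ≤ b₀⁻¹ ^ P.N := by
  calc ∑ r ∈ Finset.range P.N, amp P r ^ 2 ≤ ∑ r ∈ Finset.range P.N, P.a r * b₀⁻¹ ^ P.N :=
        sum_le_sum fun r hr => by
          rw [amp_sq P hb]
          exact mul_le_mul_of_nonneg_left (pow_le_pow_right₀ hB (mem_range.1 hr)) (P.a_nonneg r)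
    _ = b₀⁻¹ ^ P.N := by rw [← sum_mul, P.a_sum, one_mul]

theorem norm_ker_sub_ko [Nontrivial F] (hb : 0 < b₀) (hB : 1 ≤ b₀⁻¹) (hN : 2 * P.N ≤ n)
    (g g' h h' : P.Wd) :
    ‖E.marks.ker P.N (amp P) (amp P) g g' h h' - E.ko P (some true) g g' * E.ko P (some false) h h'‖
      ≤ b₀⁻¹ ^ P.N * b₀⁻¹ ^ P.N * (8 * (P.N : ℝ) ^ 2 / n) := by
  have hk : ∀ (c : Bool) (g g' : P.Wd), kF P.N (fun r => amp P r ^ 2) (mean (E.zl c g g'))
      = E.ko P (some c) g g' := fun c g g' => by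
    rw [ko, kerMat_eq, kF, kF]
    refine sum_congr rfl fun r _ => ?_
    show amp P r ^ 2 • _ = P.a r • (b₀⁻¹ • mean (E.zl c g g')) ^ (r + 1)
    rw [amp_sq P hb, smul_pow, smul_smul]
  have h0 := E.marks.norm_ker_sub E.norm_marks_va E.norm_marks_vb hN (amp P) (amp P)
    (g : G) g' h h'
  rw [E.za_eq, E.zb_eq, hk, hk] at h0
  exact h0.trans (mul_le_mul_of_nonneg_right (mul_le_mul (sum_amp_le P hb hB) (sum_amp_le P hb hB)
    (sum_nonneg fun r _ => sq_nonneg _) (by positivity)) (by positivity))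

/-- The crude bound of the element. -/
theorem norm_row_sq_le [Nontrivial F] (hb : 0 < b₀) (hB : 1 ≤ b₀⁻¹) (hn : 1 ≤ n)
    (hN : 2 * P.N ≤ n) {v : P.Wd → ℝ} (hv : ∀ g, v g ≤ 1) :
    ‖rowAt E.marks E.plain P (amp P) v‖ * ‖rowAt E.marks E.plain P (amp P) v‖
      ≤ (P.Wd.card : ℝ) ^ 4 *
          (P.L * (8 * (P.N : ℝ) ^ 2 * (b₀⁻¹ ^ P.N) ^ 2 + P.L * P.L) * P.L) := by
  rw [← CStarRing.norm_star_mul_self]
  rw [show rowAt E.marks E.plain P (amp P) v = E.marks.elem P.N (amp P) (amp P) P.Wd (E.co P v) from rfl,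
    E.marks.star_elem_mul_elem _ _ _ (E.co_comm_s' P v) (E.co_comm_s' P v)]
  have hp1 : ‖E.marks.p‖ ≤ 1 := norm_p_le E.marks fun i => E.norm_κ_le i E.norm_s
  refine (norm_mul_le _ _).trans ((mul_le_of_le_one_right (norm_nonneg _) hp1).trans ?_)
  refine (norm_mul_le _ _).trans ((mul_le_of_le_one_left (norm_nonneg _) hp1).trans ?_)
  have h0 := norm_formW_sub (fun g g' h h' : P.Wd => E.marks.ker P.N (amp P) (amp P) g g' h h')
    (fun _ _ _ _ => 0) (E.co P v) (E.co P v) P.L_nonneg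
    (δ := 8 * (P.N : ℝ) ^ 2 * (b₀⁻¹ ^ P.N) ^ 2 + P.L * P.L) (fun g g' h h' => ?_)
    (E.norm_co_le P hB hv) (E.norm_co_le P hB hv)
  · show ‖formW (fun g g' h h' : P.Wd => E.marks.ker P.N (amp P) (amp P) g g' h h') (E.co P v)
      (E.co P v)‖ ≤ _
    refine le_trans (le_of_eq ?_) (h0.trans_eq (by rw [Fintype.card_coe]))
    simp [formW]
  · rw [sub_zero]
    refine (norm_le_norm_sub_add _ (E.ko P (some true) g g' * E.ko P (some false) h h')).trans
      (add_le_add ((E.norm_ker_sub_ko P hb hB hN g g' h h').trans ?_) ?_)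
    · rw [show 8 * (P.N : ℝ) ^ 2 * (b₀⁻¹ ^ P.N) ^ 2
        = b₀⁻¹ ^ P.N * b₀⁻¹ ^ P.N * (8 * (P.N : ℝ) ^ 2) by ring]
      refine mul_le_mul_of_nonneg_left (div_le_self (by positivity) (by exact_mod_cast hn)) ?_
      positivity
    · exact (norm_mul_le _ _).trans (mul_le_mul (E.norm_ko_le P hB _ g g') (E.norm_ko_le P hB _ h h')
        (norm_nonneg _) P.L_nonneg)

/-- The error of the square against the guard. -/
def err (τ : ℝ) (m : ℕ) : ℝ :=
  (P.Wd.card : ℝ) ^ 4 * (2 * P.L * (b₀⁻¹ ^ P.N * b₀⁻¹ ^ P.N * (8 * (P.N : ℝ) ^ 2 / m)) * (2 * P.L))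
    + (P.Wd.card : ℝ) ^ 4 * (6 * (2 * P.L) ^ 2 * (2 * (P.L * (P.L * (b₀⁻¹ * b₀⁻¹ * (2 / m)))))
      + 2 * (2 * P.L) ^ 3 * ((P.N : ℝ) ^ 2 * b₀⁻¹ ^ P.N * (b₀⁻¹ * b₀⁻¹ * (2 / m) + τ)))

/-- The square against `h` is `c • h p² h` up to the error. -/
theorem norm_square_sub [Nontrivial F] (hb : 0 < b₀) (hB : 1 ≤ b₀⁻¹) (hn : 0 < n)
    (hN : 2 * P.N ≤ n) {h : F} (hh : star h = h) (hh1 : ‖h‖ ≤ 1) {τ : ℝ}
    (hdev : ∀ c (g g' : P.Wd), ‖E.dev b₀ c g g' * (E.marks.p * h)‖ ≤ τ)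
    {d : Matrix P.Wd P.Wd F} (hd : ∀ g g', ‖d g g'‖ ≤ 2 * P.L)
    (hds : ∀ g g' i, Commute (d g g') (E.marks.s' i))
    (hdc : ∀ o g g' k l, ‖E.ko P o g g' * d k l - d k l * E.ko P o g g'‖
      ≤ 2 * (P.L * (P.L * (b₀⁻¹ * b₀⁻¹ * (2 / n)))))
    {m : ℕ} {c η : ℝ} (hη : ‖star (qProd m (E.plain.zA P.Wd)) * (fF (E.ko P none) d - c • 1) *
      qProd m (E.plain.zA P.Wd)‖ ≤ η) :
    ‖star (E.marks.elem P.N (amp P) (amp P) P.Wd d * h) *
        (E.marks.elem P.N (amp P) (amp P) P.Wd d * h) - c • (h * (E.marks.p * E.marks.p) * h)‖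
      ≤ η + err P τ n := by
  set v := E.marks.p * h with hv
  have hv1 : ‖v‖ ≤ 1 := (norm_mul_le _ _).trans (mul_le_one₀
    (norm_p_le E.marks fun i => E.norm_κ_le i E.norm_s) (norm_nonneg _) hh1)
  have hL := P.L_nonneg
  set Φ := E.marks.formK P.N (amp P) (amp P) P.Wd d d with hΦ
  set Φ' := formW (fun g g' h h' : P.Wd => E.ko P (some true) g g' * E.ko P (some false) h h') d d
    with hΦ'
  set Q := qProd m (E.plain.zA P.Wd) with hQ
  have hQv : Q * v = v := by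
    rw [hv, ← mul_assoc]
    exact congrArg (· * h) (qProd_p E.plain P.Wd hn E.za_diag m)
  have hvQ : star v * star Q = star v := by rw [← star_mul, hQv]
  have e : star (E.marks.elem P.N (amp P) (amp P) P.Wd d * h) *
        (E.marks.elem P.N (amp P) (amp P) P.Wd d * h) - c • (h * (E.marks.p * E.marks.p) * h)
      = star v * (Φ - Φ') * v + star v * (Φ' - fF (E.ko P none) d) * v
        + star v * (star Q * (fF (E.ko P none) d - c • 1) * Q) * v := by
    rw [show star v * (star Q * (fF (E.ko P none) d - c • 1) * Q) * v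
      = star v * star Q * (fF (E.ko P none) d - c • 1) * (Q * v) by simp only [mul_assoc], hvQ, hQv,
      ← add_mul, ← mul_add, ← add_mul, ← mul_add,
      show Φ - Φ' + (Φ' - fF (E.ko P none) d) + (fF (E.ko P none) d - c • 1) = Φ - c • 1 by abel,
      star_mul (E.marks.elem _ _ _ _ d), hh, mul_assoc, ← mul_assoc (star _),
      E.marks.star_elem_mul_elem _ _ _ hds hds, hv, star_mul, hh, E.marks.star_p, mul_sub, sub_mul,
      mul_smul_comm, mul_one, smul_mul_assoc]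
    simp only [mul_assoc]
    rfl
  rw [e]
  refine (norm_add_le _ _).trans ?_
  rw [add_comm η]
  refine add_le_add ((norm_add_le _ _).trans (add_le_add ?_ ?_)) ?_
  · refine (norm_mul_le _ _).trans ((mul_le_of_le_one_right (norm_nonneg _) hv1).trans
      ((norm_mul_le _ _).trans ((mul_le_of_le_one_left (norm_nonneg _) (by rwa [norm_star])).trans ?_)))
    show ‖formW (fun g g' h h' : P.Wd => E.marks.ker P.N (amp P) (amp P) g g' h h') d d - Φ'‖ ≤ _
    refine (norm_formW_sub _ _ _ _ (by positivity) (fun g g' h h' =>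
      E.norm_ker_sub_ko P hb hB hN g g' h h') hd hd).trans_eq ?_
    rw [Fintype.card_coe]
  · have hA : ∀ (c : Bool) (g g' : P.Wd),
        ‖(E.ko P (some c) g g' - E.ko P none g g') * v‖
          ≤ (P.N : ℝ) ^ 2 * b₀⁻¹ ^ P.N * (b₀⁻¹ * b₀⁻¹ * (2 / n) + τ) := fun c g g' => by
      rw [ko, ko, kerMat_eq, kerMat_eq]
      refine norm_kF_sub_mul_le hB (E.norm_zo_le P hB _ g g') (E.norm_zo_le P hB _ g g')
        (E.comm_zo P hB _ _ g g' g g') hv1 ?_ P.a_nonneg P.a_sum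
      rw [E.zo_sub]
      exact hdev c g g'
    have hck : ∀ o o' g g' k l, ‖E.ko P o g g' * E.ko P o' k l - E.ko P o' k l * E.ko P o g g'‖
        ≤ 2 * (P.L * (P.L * (b₀⁻¹ * b₀⁻¹ * (2 / n)))) := fun o o' g g' k l =>
      (E.comm_ko P hB o o' g g' k l).trans (le_mul_of_one_le_left (by positivity) one_le_two)
    have hk2 : ∀ o g g', ‖E.ko P o g g'‖ ≤ 2 * P.L := fun o g g' =>
      (E.norm_ko_le P hB o g g').trans (by linarith)
    refine (norm_formW_sandwich (E.ko P (some true)) (E.ko P (some false)) (E.ko P none) d hv1 hd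
      (hk2 _) (hk2 _) (hA true) (hA false) (hck _ _) (hck _ _) (hdc _) (hdc _) (hdc _)).trans_eq ?_
    rw [Fintype.card_coe]
  · exact (norm_mul_le _ _).trans ((mul_le_of_le_one_right (norm_nonneg _) hv1).trans
      ((norm_mul_le _ _).trans ((mul_le_of_le_one_left (norm_nonneg _) (by rwa [norm_star])).trans hη)))

end LData

end

end Vale.Agent.P095.All.Row
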