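import Vale.Agent.P095.All.Row.Vect
import Vale.Agent.P095.All.Row.LetterData
import Vale.Agent.P095.All.RowMat.Pattern

/-!
# P095 row elements for amenable groups: what the guard does to the source

Relative to a source below `p` that commutes with the banks, the guard is small in every trace and
small after averaging over the patterns of the letters.
-/

namespace Vale.Agent.P095.All.Row

open Finset Vale.Agent.P101.KR Vale.Agent.P095.Amen Vale.Agent.P095.Amen.Row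
  Vale.Agent.P095.All Vale.Agent.P095.All.RowMat

noncomputable section

variable {F : Type} [CStarAlgebra F]

theorem Cl_le {A : StarSubalgebra ℂ F} (hA : IsClosed (A : Set F)) {t : Set F}
    (h : ∀ z ∈ t, z ∈ A) : Cl t ≤ A :=
  StarSubalgebra.topologicalClosure_minimal (StarAlgebra.adjoin_le h) hA

theorem isClosed_Cl' (t : Set F) : IsClosed (Cl t : Set F) :=
  StarSubalgebra.isClosed_topologicalClosure _

/-- A fixed positive square root inside `Cl t`. -/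
theorem exists_fixed_root {G : Type} {β : G → F ≃⋆ₐ[ℂ] F} {t : Set F} {a : Cl t}
    (ha0 : SqLe 0 (a : F)) (ha1 : SqLe (a : F) 1) (hfix : ∀ g, β g a = a) :
    ∃ q : Cl t, star q = q ∧ q * q = a ∧ ‖a‖ ≤ 1 ∧ ∀ g, β g q = q := by
  let := CStarAlgebra.spectralOrder F
  have := CStarAlgebra.spectralOrderedRing F
  have h0 : (0 : F) ≤ a := Coin.sqLe_iff.1 ha0
  refine ⟨⟨cfc Real.sqrt (a : F), Coin.cfc_mem' (isClosed_Cl' t) a.2 _⟩, Subtype.ext ?_,
    Subtype.ext ?_, (CStarAlgebra.norm_le_one_iff_of_nonneg (a : F) h0).2 (Coin.sqLe_iff.1 ha1),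
    fun g => ?_⟩
  · exact (cfc_predicate Real.sqrt (a : F) : IsSelfAdjoint _).star_eq
  · show cfc Real.sqrt (a : F) * cfc Real.sqrt (a : F) = a
    rw [← cfc_mul _ _ (a : F)]
    exact (cfc_congr fun t ht => Real.mul_self_sqrt (spectrum_nonneg_of_nonneg h0 ht)).trans
      (cfc_id' ℝ (a : F))
  · show β g (cfc Real.sqrt (a : F)) = cfc Real.sqrt (a : F)
    rw [StarAlgHomClass.map_cfc (β g) Real.sqrt (a : F) Real.continuous_sqrt.continuousOn
      (StarAlgEquiv.isometry (β g)).continuous (IsSelfAdjoint.of_nonneg h0)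
      ((IsSelfAdjoint.of_nonneg h0).map _), hfix]

theorem mul_eq_zero_of_sq {p q : F} (hp : star p = p) (hq : star q = q)
    (h : p * p * (q * q) = 0) : p * q = 0 := by
  have h1 : star (p * q) * (p * q) = 0 := by
    refine (CStarRing.star_mul_self_eq_zero_iff _).1 ?_
    rw [star_mul (star (p * q)) (p * q), star_star, star_mul p q, hp, hq]
    calc q * p * (p * q) * (q * p * (p * q)) = q * (p * p * (q * q)) * (p * p) * q := by
          simp only [mul_assoc]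
      _ = 0 := by rw [h]; simp
  exact (CStarRing.star_mul_self_eq_zero_iff _).1 h1

/-- Traces are monotone after squeezing by `R`. -/
theorem trace_mono {u : Set F} {τ : Cl u →ₗ[ℂ] ℂ} (hτ : IsTrace (Cl u) τ) {R W X : F}
    (hR : star R = R) (hRu : R ∈ Cl u) (hWu : W ∈ Cl u) (hXu : X ∈ Cl u) (h : SqLe W X) :
    (τ (⟨R, hRu⟩ * ⟨W, hWu⟩ * ⟨R, hRu⟩)).re ≤ (τ (⟨R, hRu⟩ * ⟨X, hXu⟩ * ⟨R, hRu⟩)).re := by
  let := CStarAlgebra.spectralOrder F
  have := CStarAlgebra.spectralOrderedRing F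
  have h0 : 0 ≤ X - W := sub_nonneg.2 (Coin.sqLe_iff.1 h)
  have hsa : IsSelfAdjoint (X - W) := IsSelfAdjoint.of_nonneg h0
  set c : Cl u := ⟨cfc Real.sqrt (X - W), Coin.cfc_mem' (isClosed_Cl' u) (sub_mem hXu hWu) _⟩
  have hc : star (c * ⟨R, hRu⟩) * (c * ⟨R, hRu⟩)
      = ⟨R, hRu⟩ * ⟨X, hXu⟩ * ⟨R, hRu⟩ - ⟨R, hRu⟩ * ⟨W, hWu⟩ * ⟨R, hRu⟩ := by
    refine Subtype.ext ?_
    show star (cfc Real.sqrt (X - W) * R) * (cfc Real.sqrt (X - W) * R) = R * X * R - R * W * R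
    rw [star_mul, hR, (cfc_predicate Real.sqrt (X - W) : IsSelfAdjoint _).star_eq,
      mul_assoc R, ← mul_assoc (cfc Real.sqrt (X - W)), ← cfc_mul _ _ (X - W),
      (cfc_congr fun t ht => Real.mul_self_sqrt (spectrum_nonneg_of_nonneg h0 ht)).trans
        (cfc_id' ℝ (X - W)), ← mul_assoc, mul_sub, sub_mul]
  have h1 := hτ.nonneg (c * ⟨R, hRu⟩)
  rw [hc, map_sub, Complex.sub_re] at h1
  linarith

variable {G : Type} [Group G] [DecidableEq G] {β : G → F ≃⋆ₐ[ℂ] F} {t t₂ : Set F} {n : ℕ}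

namespace LData

variable (E : LData β t t₂ n) (b₀ : ℝ)

/-- The sum of the translates of `bad`. -/
def badSum (Wd Eg : Finset G) : F := ∑ k ∈ Eg, β k (E.bad b₀ Wd)

theorem badSum_eq (Wd Eg : Finset G) : E.badSum b₀ Wd Eg =
    ∑ k ∈ Eg, ∑ x ∈ Wd ×ˢ Wd ×ˢ (univ : Finset Bool), E.badT b₀ (k * x.1, k * x.2.1, x.2.2) :=
  sum_congr rfl fun k _ => E.map_bad b₀ Wd k

omit [DecidableEq G] in
theorem badT_mem (A : StarSubalgebra ℂ F) (hκ : ∀ i v, E.κ.hom i v ∈ A)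
    (hμ : ∀ i v, E.μ.hom i v ∈ A) (x : G × G × Bool) : E.badT b₀ x ∈ A :=
  mul_mem (star_mem (mul_mem (E.dev_mem b₀ A hκ hμ _ _ _) (E.p_mem A hκ)))
    (mul_mem (E.dev_mem b₀ A hκ hμ _ _ _) (E.p_mem A hκ))

omit [Group G] [DecidableEq G] in
theorem card_index (Wd Eg : Finset G) :
    ∑ _k ∈ Eg, ((Wd ×ˢ Wd ×ˢ (univ : Finset Bool)).card : ℝ)
      = 2 * (Eg.card : ℝ) * (Wd.card : ℝ) ^ 2 := by
  simp only [sum_const, nsmul_eq_mul, card_product, card_univ, Fintype.card_bool]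
  push_cast
  ring

omit [DecidableEq G] in
theorem sqLe_let (c : Bool) : SqLe 0 (E.let' c : F) ∧ SqLe (E.let' c : F) 1 := by
  let := CStarAlgebra.spectralOrder F
  have := CStarAlgebra.spectralOrderedRing F
  have e : (E.let' c : F) = star (E.q c : F) * (E.q c : F) := by
    show (E.q c : F) * (E.q c : F) = _
    rw [show star (E.q c : F) = E.q c from congrArg Subtype.val (E.star_q c)]
  refine ⟨Coin.sqLe_iff.2 (e ▸ star_mul_self_nonneg _), Coin.sqLe_iff.2 ?_⟩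
  refine (CStarAlgebra.norm_le_one_iff_of_nonneg _ (e ▸ star_mul_self_nonneg _)).1 ?_
  exact E.norm_q c

/-- The guard is small in every trace relative to the source. -/
theorem trace_guard (hb : 0 < b₀) {θ : ℝ} (hθ : 0 ≤ θ)
    (hθtr : ∀ c, ∀ τ : Cl t₂ →ₗ[ℂ] ℂ, IsTrace (Cl t₂) τ → |(τ (E.let' c)).re - b₀| ≤ θ)
    {Wd Eg : Finset G} {T : ℝ} (hT : 0 < T) {W : F}
    (hW : SqLe W ((1 / T) • E.badSum b₀ Wd Eg)) {R : F} (hR : star R = R)
    (hRp : R * E.marks.p = R) (hRμ : ∀ i v, Commute R (E.μ.hom i v)) {u : Set F} (hRu : R ∈ Cl u)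
    (hWu : W ∈ Cl u) (hκu : ∀ i v, E.κ.hom i v ∈ Cl u) (hμu : ∀ i v, E.μ.hom i v ∈ Cl u)
    {τ : Cl u →ₗ[ℂ] ℂ} (hτ : IsTrace (Cl u) τ) :
    (τ (⟨R, hRu⟩ * ⟨W, hWu⟩ * ⟨R, hRu⟩)).re
      ≤ 1 / T * (2 * (Eg.card : ℝ) * (Wd.card : ℝ) ^ 2
          * ((b₀⁻¹ + 1) ^ 2 / n + (b₀⁻¹ ^ 2 + b₀⁻¹) * θ)) * (τ (⟨R, hRu⟩ * ⟨R, hRu⟩)).re := by
  set X : Cl u := (1 / T) • ∑ k ∈ Eg, ∑ x ∈ Wd ×ˢ Wd ×ˢ (univ : Finset Bool),
    (⟨E.badT b₀ (k * x.1, k * x.2.1, x.2.2), E.badT_mem b₀ _ hκu hμu _⟩ : Cl u) with hX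
  have hXe : (X : F) = (1 / T) • E.badSum b₀ Wd Eg := by
    rw [hX, E.badSum_eq]
    simp
  refine (trace_mono hτ hR hRu hWu X.2 (hXe ▸ hW)).trans ?_
  rw [show (⟨(X : F), X.2⟩ : Cl u) = X from rfl, hX]
  simp only [mul_smul_comm, smul_mul_assoc, mul_sum, sum_mul, LinearMap.map_smul_of_tower, map_sum,
    Complex.smul_re, Complex.re_sum, smul_eq_mul]
  rw [mul_assoc (1 / T)]
  simp only [← mul_sum]
  refine mul_le_mul_of_nonneg_left ?_ (by positivity)
  rw [mul_assoc (2 * (Eg.card : ℝ) * (Wd.card : ℝ) ^ 2), ← card_index Wd Eg, sum_mul]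
  refine sum_le_sum fun k _ => (sum_le_card_nsmul _ _ _ fun x _ => ?_).trans_eq (nsmul_eq_mul _ _)
  have hmem : R * star (E.dev b₀ x.2.2 (k * x.1) (k * x.2.1)) * E.dev b₀ x.2.2 (k * x.1) (k * x.2.1) * R
      ∈ Cl u :=
    mul_mem (mul_mem (mul_mem hRu (star_mem (E.dev_mem b₀ _ hκu hμu _ _ _)))
      (E.dev_mem b₀ _ hκu hμu _ _ _)) hRu
  rw [show (⟨R, hRu⟩ : Cl u) * ⟨E.badT b₀ (k * x.1, k * x.2.1, x.2.2), E.badT_mem b₀ _ hκu hμu _⟩ *
      ⟨R, hRu⟩ = ⟨_, hmem⟩ from Subtype.ext (E.R_badT_R b₀ hR hRp _)]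
  exact trace_letters E.μ.hom E.μ.comm (E.sqLe_let x.2.2).1 (E.sqLe_let x.2.2).2 hb hθ (hθtr x.2.2)
    (E.z (k * x.1) (k * x.2.1)) (E.norm_z_le _ _) (fun i j v => E.z_comm_μ _ _ i j v) u hμu
    (fun i => by rw [z_eq]; exact hκu i _) R hR hRu hRμ τ hτ hmem

/-- The guard does not hide the source. -/
theorem witness_guard (hb : 0 < b₀) (hb2 : b₀ ≤ 1 / 2) (hn : 0 < n) {fa fb fc : Cl t₂}
    (h1 : E.let' true * fa = fa) (h2 : E.let' false * fa = 0) (h3 : E.let' true * fb = 0)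
    (h4 : E.let' false * fb = fb) (h5 : E.let' true * fc = 0) (h6 : E.let' false * fc = 0)
    (hfull : ∀ f ∈ ({fa, fb, fc} : Set (Cl t₂)),
      ∃ (K : ℕ) (w : Fin K → Cl t₂), ∑ i, star (w i) * (star f * f) * w i = 1)
    {Wd Eg : Finset G} {T : ℝ} (hT : 0 < T) {W : F}
    (hW : SqLe W ((1 / T) • E.badSum b₀ Wd Eg))
    (hsmall : 1 / T * (2 * (Eg.card : ℝ) * (Wd.card : ℝ) ^ 2) * (1 / (n * b₀)) ≤ 1 / 2)
    {R : F} (hR : star R = R) (hRp : R * E.marks.p = R) (hRμ : ∀ i v, Commute R (E.μ.hom i v)) :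
    ∃ (K : ℕ) (v : Fin K → F), ∑ i, star (v i) * v i = 1 ∧
      SqLe ((1 / 2 : ℝ) • (R * R)) (∑ i, star (v i) * (R * (1 - W) * R) * v i) := by
  let := CStarAlgebra.spectralOrder F
  have := CStarAlgebra.spectralOrderedRing F
  obtain ⟨K, v, hv1, hvc, hv⟩ := pattern_average hn E.μ.hom E.μ.comm hb hb2 (E.sqLe_let true).1
    (E.sqLe_let false).1 h1 h2 h3 h4 h5 h6 hfull
  refine ⟨K, v, hv1, Coin.sqLe_iff.2 ?_⟩
  have hRv : ∀ i, Commute R (v i) := fun i => hvc i R hRμ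
  have hRv' : ∀ i, Commute R (star (v i)) := fun i => by
    have := (hRv i).star_star
    rwa [hR] at this
  have hav : ∀ X : F,
      ∑ i, star (v i) * (R * X * R) * v i = R * (∑ i, star (v i) * X * v i) * R := fun X => by
    rw [mul_sum, sum_mul]
    refine sum_congr rfl fun i _ => ?_
    calc star (v i) * (R * X * R) * v i = star (v i) * R * X * (R * v i) := by simp only [mul_assoc]
      _ = R * star (v i) * X * (v i * R) := by rw [(hRv' i).eq, (hRv i).eq]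
      _ = _ := by simp only [mul_assoc]
  have hconj : ∀ {a b : F}, a ≤ b → R * a * R ≤ R * b * R := fun {a b} h => by
    have := star_left_conjugate_le_conjugate h R
    rwa [hR] at this
  have hR2 : 0 ≤ R * R := by
    have := star_mul_self_nonneg R
    rwa [hR] at this
  have key : ∑ i, star (v i) * (R * W * R) * v i ≤ (1 / 2 : ℝ) • (R * R) := by
    calc ∑ i, star (v i) * (R * W * R) * v i
        ≤ ∑ i, star (v i) * (R * ((1 / T) • E.badSum b₀ Wd Eg) * R) * v i :=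
          sum_le_sum fun i _ => star_left_conjugate_le_conjugate (hconj (Coin.sqLe_iff.1 hW)) _
      _ = (1 / T) • ∑ k ∈ Eg, ∑ x ∈ Wd ×ˢ Wd ×ˢ (univ : Finset Bool),
            ∑ i, star (v i) * (R * E.badT b₀ (k * x.1, k * x.2.1, x.2.2) * R) * v i := by
          simp only [badSum_eq, mul_smul_comm, smul_mul_assoc, mul_sum, sum_mul, ← smul_sum]
          rw [sum_comm]
          exact congrArg _ (sum_congr rfl fun k _ => sum_comm)
      _ ≤ (1 / T) • ∑ _k ∈ Eg, ((Wd ×ˢ Wd ×ˢ (univ : Finset Bool)).card : ℝ) •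
            ((1 / ((n : ℝ) * b₀)) • (R * R)) := by
          refine smul_le_smul_of_nonneg_left (sum_le_sum fun k _ => (sum_le_card_nsmul _ _ _
            fun x _ => ?_).trans_eq (Nat.cast_smul_eq_nsmul ℝ _ _).symm) (by positivity)
          rw [E.R_badT_R b₀ hR hRp, mul_assoc R (star _), hav]
          have hin := hconj (Coin.sqLe_iff.1 (hv (E.z (k * x.1) (k * x.2.1)) (E.norm_z_le _ _)
            (fun i j w => E.z_comm_μ _ _ i j w) (E.let' x.2.2)
            (by cases x.2.2 <;> simp)))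
          rw [mul_smul_comm, mul_one, smul_mul_assoc] at hin
          exact hin
      _ = (1 / T * (2 * (Eg.card : ℝ) * (Wd.card : ℝ) ^ 2) * (1 / (n * b₀))) • (R * R) := by
          rw [← sum_smul, card_index, smul_smul, smul_smul]
      _ ≤ _ := smul_le_smul_of_nonneg_right hsmall hR2
  have e : ∑ i, star (v i) * (R * (1 - W) * R) * v i
      = R * R - ∑ i, star (v i) * (R * W * R) * v i := by
    simp only [mul_sub, sub_mul, sum_sub_distrib, mul_one]
    congr 1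
    have := hav 1
    simp only [mul_one] at this
    rw [this, hv1, mul_one]
  rw [e, le_sub_iff_add_le]
  calc (1 / 2 : ℝ) • (R * R) + ∑ i, star (v i) * (R * W * R) * v i
      ≤ (1 / 2 : ℝ) • (R * R) + (1 / 2 : ℝ) • (R * R) := add_le_add le_rfl key
    _ = R * R := by rw [← add_smul]; norm_num

end LData

end

end Vale.Agent.P095.All.Row
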