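import Vale.Agent.P095.All.Row.MainW
import Vale.Agent.P095.All.Row.LetterBound
import Vale.Agent.P095.All.Row.LetterGuard
import Vale.Agent.P095.All.Targets

/-!
# P095: the row whose marks are letters in auxiliary banks, corrected by a guard
-/

namespace Vale.Agent.P095.All.Row

open Finset Vale.Agent.P101.KR Vale.Agent.P095.Amen Vale.Agent.P095.Amen.Row
  Vale.Agent.P095.All Vale.Agent.P095.All.RowMat

noncomputable section

variable {F : Type} [CStarAlgebra F] {G : Type} [Group G] [DecidableEq G]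
  {β : G → F ≃⋆ₐ[ℂ] F} {t t₂ : Set F} {n : ℕ}

namespace LData

variable (E : LData β t t₂ n)

/-- Everything generated by the copies. -/
def big : StarSubalgebra ℂ F :=
  Cl ((⋃ i, Set.range (E.κ.hom i)) ∪ ⋃ i, Set.range (E.μ.hom i))

omit [DecidableEq G] in
theorem κ_big (i : Fin n) (v : Cl t) : E.κ.hom i v ∈ E.big :=
  StarSubalgebra.le_topologicalClosure _ (StarAlgebra.subset_adjoin ℂ _
    (Or.inl (Set.mem_iUnion.2 ⟨i, v, rfl⟩)))

omit [DecidableEq G] in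
theorem μ_big (i : Fin n) (v : Cl t₂) : E.μ.hom i v ∈ E.big :=
  StarSubalgebra.le_topologicalClosure _ (StarAlgebra.subset_adjoin ℂ _
    (Or.inr (Set.mem_iUnion.2 ⟨i, v, rfl⟩)))

theorem norm_dev_source_le [PartialOrder F] [StarOrderedRing F] {b₀ : ℝ} {Wd : Finset G}
    {r W h : F} (hr : E.bad b₀ Wd = star r * r) (hh : star h = h) (hhh : h * h = 1 - W) {s : ℝ}
    (hs : 0 ≤ s) (hhide : ‖r * (1 - W) * star r‖ ≤ s * s) (c : Bool) (g g' : Wd) :
    ‖E.dev b₀ c g g' * (E.marks.p * h)‖ ≤ s := by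
  set x : G × G × Bool := ((g : G), (g' : G), c)
  have h1 : E.badT b₀ x ≤ E.bad b₀ Wd :=
    single_le_sum (fun y _ => star_mul_self_nonneg (E.dev b₀ y.2.2 y.1 y.2.1 * E.marks.p))
      (mem_product.2 ⟨g.2, mem_product.2 ⟨g'.2, mem_univ _⟩⟩)
  rw [hr] at h1
  have h0 : 0 ≤ E.badT b₀ x := star_mul_self_nonneg (E.dev b₀ x.2.2 x.1 x.2.1 * E.marks.p)
  have h2 : ‖star h * E.badT b₀ x * h‖ ≤ ‖star h * (star r * r) * h‖ :=
    CStarAlgebra.norm_le_norm_of_nonneg_of_le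
      (star_left_conjugate_nonneg h0 h) (star_left_conjugate_le_conjugate h1 h)
  rw [show star h * E.badT b₀ x * h
      = star (E.dev b₀ c g g' * (E.marks.p * h)) * (E.dev b₀ c g g' * (E.marks.p * h)) by
        rw [badT]; simp only [x, star_mul, mul_assoc],
    show star h * (star r * r) * h = star (r * h) * (r * h) by simp only [star_mul, mul_assoc],
    CStarRing.norm_star_mul_self, CStarRing.norm_star_mul_self] at h2
  have h3 : ‖r * h‖ * ‖r * h‖ ≤ s * s := by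
    rw [← CStarRing.norm_self_mul_star, star_mul, hh,
      show r * h * (h * star r) = r * (h * h) * star r by simp only [mul_assoc], hhh]
    exact hhide
  exact (mul_self_le_mul_self_iff (norm_nonneg _) hs).2 (h2.trans h3)

/-- The element against the guard, from the bounds. -/
theorem exists_row [Nontrivial F] [PartialOrder F] [StarOrderedRing F] {Sg : Finset G} {b₀ e : ℝ}
    (P : Params Sg (e / 2) b₀⁻¹) (hb : 0 < b₀) (hB : 1 ≤ b₀⁻¹) (hn : 0 < n) (hN : 2 * P.N ≤ n) (hτ : 2 / (n : ℝ) ≤ P.τ) {s : ℝ} (herr : err P s n ≤ e / 2)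
    {h : F} (hh : star h = h) (hh1 : ‖h‖ ≤ 1) (hhp : Commute h E.marks.p')
    (hdev : ∀ c (g g' : P.Wd), ‖E.dev b₀ c g g' * (E.marks.p * h)‖ ≤ s) :
    ∃ y₀ : F, y₀ ∈ E.big ∧ ‖y₀ * h‖ * ‖y₀ * h‖ ≤ 1 + e ∧
      ‖y₀‖ * ‖y₀‖ ≤ (P.Wd.card : ℝ) ^ 4 *
        (P.L * (8 * (P.N : ℝ) ^ 2 * (b₀⁻¹ ^ P.N) ^ 2 + P.L * P.L) * P.L) ∧
      (∀ g ∈ Sg, ‖β g y₀‖ = ‖y₀‖ ∧ ‖(β g y₀ - y₀) * h‖ * ‖(β g y₀ - y₀) * h‖ ≤ e) ∧
      y₀ * h * E.marks.p' = y₀ * h ∧ E.marks.p' * (y₀ * h) = 0 ∧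
      (∀ Q : F, (∀ i, Q * E.κ.hom i E.e = E.κ.hom i E.e) → Q * y₀ = y₀) ∧
      h * (E.marks.p * E.marks.p) * h ≤ star (y₀ * h) * (y₀ * h) + e • (1 : F) := by
  set X := fun v : P.Wd → ℝ => rowAt E.marks E.plain P (amp P) v with hX
  have hL := P.L_nonneg
  have hz := zA_nearGram E.plain P.Wd E.norm_plain_va hτ
  have hv1 : ∀ g, (P.w ∘ (P.e g).symm) ≤ 1 := fun g x => P.w_le _
  have hcnorm : ∀ v : P.Wd → ℝ, (∀ g, v g ≤ 1) → ∀ g g', ‖E.co P v g g'‖ ≤ 2 * P.L :=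
    fun v hv g g' => (E.norm_co_le P hB hv g g').trans (by linarith)
  have hval : ‖star (X P.w * h) * (X P.w * h) - h * (E.marks.p * E.marks.p) * h‖ ≤ e := by
    have h0 := E.norm_square_sub P hb hB hn hN hh hh1 hdev (d := E.co P P.w) (c := 1) (η := e / 2)
      (m := P.m₀) (hcnorm _ P.w_le) (E.co_comm_s' P P.w)
      (fun o g g' k l => (E.comm_ko_co P hB o P.w_le g g' k l).trans
        (le_mul_of_one_le_left (by positivity) one_le_two))
      (by rw [one_smul]; exact P.value F _ hz)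
    rw [one_smul] at h0
    exact h0.trans (by linarith)
  have hdiff : ∀ g ∈ Sg, ‖β g (X P.w)‖ = ‖X P.w‖ ∧
      ‖(β g (X P.w) - X P.w) * h‖ * ‖(β g (X P.w) - X P.w) * h‖ ≤ e := fun g hg => by
    refine ⟨StarAlgEquiv.norm_map (β g) _, ?_⟩
    have hβ : β g (X P.w) = X (P.w ∘ (P.e g).symm) :=
      map_rowAt E.marks E.plain P (amp P) hg (β g).toStarAlgHom
        (fun a i => by
          show β g (E.μ.hom i (E.q true) * E.κ.hom i (E.xs a))
            = E.μ.hom i (E.q true) * E.κ.hom i (E.xs (g * a))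
          rw [map_mul, E.μ.equiv i g _ _ (E.fix_q true g), E.κ.equiv i g _ _ (E.move g a)])
        (fun a i => by
          show β g (E.μ.hom i (E.q false) * E.κ.hom i (E.xs a))
            = E.μ.hom i (E.q false) * E.κ.hom i (E.xs (g * a))
          rw [map_mul, E.μ.equiv i g _ _ (E.fix_q false g), E.κ.equiv i g _ _ (E.move g a)])
        (fun i => map_one _) (fun a i => E.κ.equiv i g _ _ (E.move g a))
        fun i => E.κ.equiv i g _ _ (E.fix_s g)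
    rw [hβ, ← CStarRing.norm_star_mul_self,
      show X (P.w ∘ (P.e g).symm) - X P.w = -(X P.w - X (P.w ∘ (P.e g).symm)) by abel, neg_mul,
      star_neg, neg_mul_neg, hX, rowAt_sub]
    have h0 := E.norm_square_sub P hb hB hn hN hh hh1 hdev
      (d := E.co P P.w - E.co P (P.w ∘ (P.e g).symm)) (c := 0) (η := e / 2) (m := P.m g)
      (fun a b => by
        rw [Matrix.sub_apply]
        refine (norm_sub_le _ _).trans ((add_le_add (E.norm_co_le P hB P.w_le a b)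
          (E.norm_co_le P hB (hv1 g) a b)).trans_eq (two_mul _).symm))
      (fun a b i => by
        rw [Matrix.sub_apply]
        exact (E.co_comm_s' P _ a b i).sub_left (E.co_comm_s' P _ a b i))
      (fun o a b k l => by
        rw [Matrix.sub_apply, mul_sub, sub_mul, two_mul, sub_sub_sub_comm]
        exact (norm_sub_le _ _).trans (add_le_add (E.comm_ko_co P hB o P.w_le a b k l)
          (E.comm_ko_co P hB o (hv1 g) a b k l)))
      (by rw [zero_smul, sub_zero]; exact P.diff g hg F _ hz)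
    rw [zero_smul, sub_zero] at h0
    exact h0.trans (by linarith)
  have hp1 : ‖E.marks.p‖ ≤ 1 := norm_p_le E.marks fun i => E.norm_κ_le i E.norm_s
  have hup : ‖X P.w * h‖ * ‖X P.w * h‖ ≤ 1 + e := by
    rw [← CStarRing.norm_star_mul_self]
    refine (norm_le_norm_sub_add _ (h * (E.marks.p * E.marks.p) * h)).trans ?_
    rw [add_comm (1 : ℝ)]
    refine add_le_add hval ((norm_mul_le _ _).trans (mul_le_one₀ ((norm_mul_le _ _).trans
      (mul_le_one₀ hh1 (norm_nonneg _) ((norm_mul_le _ _).trans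
        (mul_le_one₀ hp1 (norm_nonneg _) hp1)))) (norm_nonneg _) hh1))
  refine ⟨X P.w, rowAt_mem E.marks E.plain P (amp P) P.w _
    (fun g i => mul_mem (E.μ_big i _) (E.κ_big i _)) (fun g i => mul_mem (E.μ_big i _) (E.κ_big i _))
    (fun g i => E.κ_big i _) (fun i => E.κ_big i _) (fun i => one_mem _), hup,
    E.norm_row_sq_le P hb hB hn hN P.w_le, hdiff, ?_, ?_, fun Q hQ => ?_, ?_⟩
  · rw [mul_assoc, hhp.eq, ← mul_assoc]
    exact congrArg (· * h) (E.marks.elem_p' _ _ _ _ _)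
  · rw [← mul_assoc]
    exact (congrArg (· * h) (E.marks.p'_elem _ _ _ _ _)).trans (zero_mul h)
  · refine E.marks.fix_elem _ _ _ _ _ fun g i => ?_
    have hQκ : ∀ c, Q * ((1 : F) * (E.μ.hom i (E.q c) * E.κ.hom i (E.xs g)))
        = (1 : F) * (E.μ.hom i (E.q c) * E.κ.hom i (E.xs g)) := fun c => by
      rw [one_mul, ← (E.cross i i (E.xs g) (E.q c)).eq, ← E.e_xs g, map_mul, mul_assoc,
        ← mul_assoc Q, hQ]
    exact ⟨hQκ true, hQκ false⟩
  · refine sub_nonneg.1 ?_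
    rw [add_sub_right_comm]
    have hsa : IsSelfAdjoint (star (X P.w * h) * (X P.w * h) - h * (E.marks.p * E.marks.p) * h) := by
      refine (IsSelfAdjoint.star_mul_self _).sub ?_
      show star _ = _
      simp only [star_mul, hh, E.marks.star_p, mul_assoc]
    have hge := hsa.neg.le_algebraMap_norm_self.trans
      (algebraMap_mono F ((norm_neg _).trans_le hval))
    rw [Algebra.algebraMap_eq_smul_one, neg_le_iff_add_nonneg'] at hge
    exact hge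

/-- The guard and its root. -/
theorem exists_root_guard [PartialOrder F] [StarOrderedRing F] {b₀ δ : ℝ} {Wd Eg S : Finset G} {W : F}
    (hW0 : SqLe 0 W) (hW1 : SqLe W 1)
    (hWm : W ∈ Cl ((fun k => β k (E.bad b₀ Wd)) '' (Eg : Set G))) (hδ : 0 ≤ δ)
    (hWd : ∀ g ∈ S, ‖β g W - W‖ ≤ δ) :
    Commute W E.marks.p' ∧ W ∈ E.big ∧ ∃ h : F, star h = h ∧ h * h = 1 - W ∧ ‖h‖ ≤ 1 ∧
      Commute h E.marks.p' ∧ h ∈ E.big ∧ ∀ g ∈ S, ‖β g h - h‖ ≤ Real.sqrt δ := by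
  have hWp : Commute W E.marks.p' := by
    have hle : Cl ((fun k => β k (E.bad b₀ Wd)) '' (Eg : Set G))
        ≤ StarSubalgebra.centralizer ℂ {E.marks.p'} := by
      refine Cl_le (by rw [StarSubalgebra.coe_centralizer]; exact Set.isClosed_centralizer _) ?_
      rintro z ⟨k, -, rfl⟩
      rw [StarSubalgebra.mem_centralizer_iff]
      rintro _ rfl
      have hc : Commute (β k (E.bad b₀ Wd)) E.marks.p' := by
        rw [E.map_bad]
        exact Commute.sum_left _ _ _ fun y _ => E.badT_comm_p' b₀ _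
      exact ⟨hc.eq.symm, by rw [E.marks.star_p']; exact hc.eq.symm⟩
    exact (((StarSubalgebra.mem_centralizer_iff ℂ).1 (hle hWm) _ rfl).1).symm
  have hWbig : W ∈ E.big := by
    refine Cl_le (isClosed_Cl' _) ?_ hWm
    rintro z ⟨k, -, rfl⟩
    show β k (E.bad b₀ Wd) ∈ E.big
    rw [E.map_bad]
    exact sum_mem fun y _ => E.badT_mem b₀ _ E.κ_big E.μ_big _
  have hW0' : 0 ≤ W := Coin.sqLe_iff.1 hW0
  have hW1' : 0 ≤ 1 - W := sub_nonneg.2 (Coin.sqLe_iff.1 hW1)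
  have hsa : IsSelfAdjoint (1 - W) := IsSelfAdjoint.of_nonneg hW1'
  set h := cfc Real.sqrt (1 - W) with hh_def
  have hhh : h * h = 1 - W := by
    rw [hh_def, ← cfc_mul Real.sqrt Real.sqrt (1 - W)]
    exact (cfc_congr fun t ht => Real.mul_self_sqrt (spectrum_nonneg_of_nonneg hW1' ht)).trans
      (cfc_id' ℝ (1 - W))
  have h0 : 0 ≤ h := cfc_nonneg fun t _ => Real.sqrt_nonneg t
  have hh : star h = h := (IsSelfAdjoint.of_nonneg h0).star_eq
  have hh1 : ‖h‖ ≤ 1 := by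
    have h1 : ‖h‖ * ‖h‖ ≤ 1 := by
      rw [← CStarRing.norm_star_mul_self, hh, hhh]
      exact (CStarAlgebra.norm_le_one_iff_of_nonneg _ hW1').2 (sub_le_self _ hW0')
    nlinarith [norm_nonneg h]
  refine ⟨hWp, hWbig, h, hh, hhh, hh1, ((Commute.one_left _).sub_left hWp).cfc_real _,
    Coin.cfc_mem' (isClosed_Cl' _) (sub_mem (one_mem _) hWbig) _, fun g hg => ?_⟩
  rw [← CFC.sqrt_unique hhh h0, show β g (CFC.sqrt (1 - W)) = CFC.sqrt (1 - β g W) from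
    (CFC.sqrt_unique (by rw [← map_mul, CFC.sqrt_mul_sqrt_self _ hW1', map_sub, map_one])
      (map_nonneg _ (CFC.sqrt_nonneg _))).symm]
  refine norm_sqrt_sub_le (sub_nonneg.2 ?_) hW1' (Real.sqrt_nonneg _) ?_
  · have := OrderHomClass.mono (β g) (Coin.sqLe_iff.1 hW1)
    rwa [map_one] at this
  · rw [Real.mul_self_sqrt hδ, sub_sub_sub_cancel_left, norm_sub_rev]
    exact hWd g hg

end LData

end

end Vale.Agent.P095.All.Row

namespace Vale.Agent.P095.All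

open Finset Vale.Agent.P101.KR Vale.Agent.P095.Amen Vale.Agent.P095.Amen.Row Row RowMat

noncomputable section

theorem exists_nat_bound (N : ℕ) (q : List ℝ) : ∃ n : ℕ, 0 < n ∧ 2 * N ≤ n ∧ ∀ x ∈ q, x ≤ n := by
  induction q with
  | nil => exact ⟨2 * N + 1, by omega, by omega, by simp⟩
  | cons x q ih =>
    obtain ⟨n, h0, hN, hq⟩ := ih
    refine ⟨n + ⌈x⌉₊, by omega, by omega, fun y hy => ?_⟩
    rcases List.mem_cons.1 hy with rfl | hy
    · exact (Nat.le_ceil y).trans (by exact_mod_cast Nat.le_add_left _ _)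
    · exact (hq y hy).trans (by exact_mod_cast Nat.le_add_right _ _)

/-- The choice of `n` and then `θ`. -/
theorem exists_numbers (N : ℕ) {e τ γ b₀ m : ℝ} (K1 : ℝ) (he : 0 < e) (hτ : 0 < τ) (hγ : 0 < γ)
    (hb : 0 < b₀) (hm : 0 ≤ m) : ∃ (n : ℕ) (θ : ℝ), 0 < n ∧ 2 * N ≤ n ∧ 2 / (n : ℝ) ≤ τ ∧
      K1 / n ≤ e / 4 ∧ 0 < θ ∧
      (b₀⁻¹ + 1) ^ 2 * m / n + m * ((b₀⁻¹ ^ 2 + b₀⁻¹) * θ) ≤ γ ∧ m / b₀ / n ≤ 1 / 2 := by
  obtain ⟨n, hn, hN, hq⟩ := exists_nat_bound N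
    [2 / τ, 4 * K1 / e, 2 * (b₀⁻¹ + 1) ^ 2 * m / γ, 2 * m / b₀]
  obtain ⟨q1, q2, q3, q4⟩ : 2 / τ ≤ n ∧ 4 * K1 / e ≤ n ∧ 2 * (b₀⁻¹ + 1) ^ 2 * m / γ ≤ n ∧
      2 * m / b₀ ≤ n :=
    ⟨hq _ List.mem_cons_self, hq _ (List.mem_cons_of_mem _ List.mem_cons_self),
      hq _ (List.mem_cons_of_mem _ (List.mem_cons_of_mem _ List.mem_cons_self)),
      hq _ (List.mem_cons_of_mem _ (List.mem_cons_of_mem _ (List.mem_cons_of_mem _
        List.mem_cons_self)))⟩
  have hn' : (0 : ℝ) < n := by exact_mod_cast hn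
  set θ := γ / (2 * ((m + 1) * (b₀⁻¹ ^ 2 + b₀⁻¹))) with hθ
  refine ⟨n, θ, hn, hN, ?_, ?_, by positivity, ?_, ?_⟩
  · rw [div_le_iff₀ hτ] at q1
    rw [div_le_iff₀ hn']
    linarith
  · rw [div_le_iff₀ he] at q2
    rw [div_le_iff₀ hn']
    linarith
  · have h1 : (b₀⁻¹ + 1) ^ 2 * m / n ≤ γ / 2 := by
      rw [div_le_iff₀ hγ] at q3
      rw [div_le_iff₀ hn']
      linarith
    have h2 : m * ((b₀⁻¹ ^ 2 + b₀⁻¹) * θ) ≤ γ / 2 := by
      rw [hθ, show m * ((b₀⁻¹ ^ 2 + b₀⁻¹) * (γ / (2 * ((m + 1) * (b₀⁻¹ ^ 2 + b₀⁻¹)))))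
        = γ / 2 * (m / (m + 1)) by field_simp]
      exact mul_le_of_le_one_right (by positivity) ((div_le_one (by linarith)).2 (by linarith))
    linarith
  · rw [mul_div_assoc] at q4
    rw [div_le_iff₀ hn']
    linarith

/-- The constants `e`, then the guard and the threshold `s`, then `n`, then `θ`. -/
theorem exists_constants {G : Type} [Group G] [DecidableEq G] (hGu : GuardTarget)
    (hAm : IsAmenable G) (S : Finset G) {ε b₀ γ : ℝ} (hε : 0 < ε) (hb : 0 < b₀) (hγ : 0 < γ) :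
    ∃ (e δ : ℝ) (P : Params S (e / 2) b₀⁻¹) (Eg : Finset G) (T s : ℝ) (n : ℕ) (θ : ℝ),
      (∀ (F : Type) [CStarAlgebra F] (β : G → F ≃⋆ₐ[ℂ] F), (∀ g h x, β (g * h) x = β g (β h x)) →
        ∀ bad : F, SqLe 0 bad → ∃ W : F, SqLe 0 W ∧ SqLe W 1 ∧
          W ∈ Cl ((fun h => β h bad) '' (Eg : Set G)) ∧ (∀ g ∈ S, ‖β g W - W‖ ≤ δ) ∧
          SqLe W ((1 / T) • ∑ h ∈ Eg, β h bad) ∧
          ∀ r : F, star r * r = bad → ‖r * (1 - W) * star r‖ ≤ T) ∧
      0 < e ∧ e ≤ 1 ∧ e ≤ ε ∧ e ≤ (ε / 2) * (ε / 2) ∧ δ ≤ ε ∧ δ ≤ ε * ε ∧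
      Real.sqrt δ * (Real.sqrt ((P.Wd.card : ℝ) ^ 4 *
        (P.L * (8 * (P.N : ℝ) ^ 2 * (b₀⁻¹ ^ P.N) ^ 2 + P.L * P.L) * P.L)) + 1) ≤ ε / 2 ∧ 0 ≤ δ ∧
      0 ≤ s ∧ T = s * s ∧ 0 < T ∧ 0 < n ∧ 2 * P.N ≤ n ∧ 2 / (n : ℝ) ≤ P.τ ∧
      LData.err P s n ≤ e / 2 ∧ 0 < θ ∧
      1 / T * (2 * (Eg.card : ℝ) * (P.Wd.card : ℝ) ^ 2
        * ((b₀⁻¹ + 1) ^ 2 / n + (b₀⁻¹ ^ 2 + b₀⁻¹) * θ)) ≤ γ ∧
      1 / T * (2 * (Eg.card : ℝ) * (P.Wd.card : ℝ) ^ 2) * (1 / (n * b₀)) ≤ 1 / 2 := by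
  obtain ⟨e, hedef⟩ : ∃ e, e = min (min 1 ε) ((ε / 2) * (ε / 2)) := ⟨_, rfl⟩
  have he : 0 < e := hedef ▸ lt_min (lt_min one_pos hε) (mul_pos (half_pos hε) (half_pos hε))
  obtain ⟨P⟩ := exists_params hAm S (half_pos he) (inv_nonneg.2 hb.le)
  obtain ⟨CY, hCY⟩ : ∃ x, x = Real.sqrt ((P.Wd.card : ℝ) ^ 4 *
    (P.L * (8 * (P.N : ℝ) ^ 2 * (b₀⁻¹ ^ P.N) ^ 2 + P.L * P.L) * P.L)) + 1 := ⟨_, rfl⟩
  have hCY0 : 0 < CY := hCY ▸ add_pos_of_nonneg_of_pos (Real.sqrt_nonneg _) one_pos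
  have hCY1 : 1 ≤ CY := hCY ▸ le_add_of_nonneg_left (Real.sqrt_nonneg _)
  obtain ⟨δ, hδdef⟩ : ∃ δ, δ = min ε ((ε / (2 * CY)) * (ε / (2 * CY))) := ⟨_, rfl⟩
  have hc : 0 < ε / (2 * CY) := div_pos hε (mul_pos two_pos hCY0)
  have hδ : 0 < δ := hδdef ▸ lt_min hε (mul_pos hc hc)
  obtain ⟨Eg, -, hEg⟩ := hGu G S δ hδ
  have hL := P.L_nonneg
  obtain ⟨K2, hK2⟩ : ∃ x, x = (P.Wd.card : ℝ) ^ 4 *
      (2 * (2 * P.L) ^ 3 * ((P.N : ℝ) ^ 2 * b₀⁻¹ ^ P.N)) := ⟨_, rfl⟩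
  have hK20 : 0 ≤ K2 := by rw [hK2]; positivity
  obtain ⟨s, hs⟩ : ∃ s, s = e / (4 * (K2 + 1)) := ⟨_, rfl⟩
  have hs0 : 0 < s := hs ▸ div_pos he (mul_pos four_pos (by linarith))
  obtain ⟨K1, hK1⟩ : ∃ x, x = (P.Wd.card : ℝ) ^ 4 *
        (2 * P.L * (b₀⁻¹ ^ P.N * b₀⁻¹ ^ P.N * (8 * (P.N : ℝ) ^ 2)) * (2 * P.L))
      + (P.Wd.card : ℝ) ^ 4 * (6 * (2 * P.L) ^ 2 * (2 * (P.L * (P.L * (b₀⁻¹ * b₀⁻¹ * 2))))
      + 2 * (2 * P.L) ^ 3 * ((P.N : ℝ) ^ 2 * b₀⁻¹ ^ P.N * (b₀⁻¹ * b₀⁻¹ * 2))) := ⟨_, rfl⟩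
  obtain ⟨m, hm⟩ : ∃ m, m = 2 * (Eg.card : ℝ) * (P.Wd.card : ℝ) ^ 2 / (s * s) := ⟨_, rfl⟩
  have hm0 : 0 ≤ m := hm ▸ div_nonneg (by positivity) (mul_nonneg hs0.le hs0.le)
  obtain ⟨n, θ, hn, hN, hnτ, hK1n, hθ, hγn, hmn⟩ := exists_numbers P.N K1 he P.τ_pos hγ hb hm0
  have hδ' : Real.sqrt δ ≤ ε / (2 * CY) :=
    (Real.sqrt_le_sqrt (hδdef.trans_le (min_le_right _ _))).trans_eq (Real.sqrt_mul_self hc.le)
  refine ⟨e, δ, P, Eg, s * s, s, n, θ,
    fun F _ β hβ bad hbad => hEg F β hβ bad (s * s) hbad (mul_pos hs0 hs0), he,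
    hedef.trans_le ((min_le_left _ _).trans (min_le_left _ _)),
    hedef.trans_le ((min_le_left _ _).trans (min_le_right _ _)),
    hedef.trans_le (min_le_right _ _), hδdef.trans_le (min_le_left _ _), ?_, ?_, hδ.le, hs0.le, rfl,
    mul_pos hs0 hs0, hn, hN, hnτ, ?_, hθ, ?_, ?_⟩
  · refine (hδdef.trans_le (min_le_right _ _)).trans (mul_self_le_mul_self hc.le ?_)
    exact div_le_self hε.le (by linarith)
  · rw [← hCY]
    refine (mul_le_mul_of_nonneg_right hδ' hCY0.le).trans_eq ?_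
    field_simp
  · have e0 : LData.err P s n = K1 / n + K2 * s := by
      rw [LData.err, hK1, hK2]
      ring
    have h2 : K2 * s ≤ e / 4 := by
      rw [hs, mul_div_assoc', div_le_div_iff₀ (by linarith) four_pos]
      nlinarith
    rw [e0]
    linarith
  · refine le_of_eq_of_le ?_ hγn
    rw [hm]; ring
  · refine le_of_eq_of_le ?_ hmn
    rw [hm]; ring

/-- The row with letters and guard. -/
theorem rowL_of (hGu : GuardTarget) : RowLTarget := by
  intro G _ S hAm ε b₀ γ hε hb hb2 hγ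
  classical
  obtain ⟨ee, δ, P, Eg, T, sT, n, θ, hguard, he, he1, heε, he2, hδε, hδ2, hδY, hδ0, hs0, hTs, hT0,
    hn, hN, hτ, herr, hθ0, htrace, hwit⟩ := exists_constants hGu hAm S hε hb hγ
  refine ⟨n, θ, hn, hθ0, ?_⟩
  intro F _ β hβ t _ hβt t₂ _ _ s s' e x hfix hstar hstar' hns _hns' hnx hcomm hs's hs'x hxs' hex hsq
    a b fa fb fc hfix2 ha0 ha1 hb0 hb1 hab htr h1 h2 h3 h4 h5 h6 hfull κ μ hcross
  rcases subsingleton_or_nontrivial F with h | h
  · have h0 : ∀ z : F, ‖z‖ ≤ ε := fun z => by rw [Subsingleton.elim z 0, norm_zero]; exact hε.le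
    have hsq0 : ∀ a b : F, SqLe a b := fun a b => ⟨0, Subsingleton.elim _ _⟩
    refine ⟨0, 0, 0, zero_mem _, zero_mem _, zero_mem _, hsq0 _ _, hsq0 _ _, star_zero _,
      Subsingleton.elim _ _, Commute.zero_left _, Commute.zero_left _, by simp,
      fun g _ => ⟨h0 _, h0 _, h0 _⟩, Subsingleton.elim _ _, Subsingleton.elim _ _,
      Subsingleton.elim _ _, hsq0 _ _, fun _ _ => Subsingleton.elim _ _, fun R _ _ _ =>
        ⟨fun u _ hR hW _ _ τ _ => ?_, 1, fun _ => 1, Subsingleton.elim _ _, hsq0 _ _⟩⟩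
    rw [show (⟨R, hR⟩ : Cl u) * ⟨0, hW⟩ * ⟨R, hR⟩ = 0 from Subtype.ext (Subsingleton.elim _ _),
      show (⟨R, hR⟩ : Cl u) * ⟨R, hR⟩ = 0 from Subtype.ext (Subsingleton.elim _ _)]
    simp
  let _ : PartialOrder F := CStarAlgebra.spectralOrder F
  have : StarOrderedRing F := CStarAlgebra.spectralOrderedRing F
  obtain ⟨qa, hqa, hqaa, hna, hfa⟩ := exists_fixed_root ha0 ha1 fun g => hfix2 g a (by simp)
  obtain ⟨qb, hqb, hqbb, hnb, hfb⟩ := exists_fixed_root hb0 hb1 fun g => hfix2 g b (by simp)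
  let E : LData β t t₂ n :=
    { s := s, s' := s', e := e
      xs := fun g => ⟨β g (x : F), map_mem_Cl_of hβt g x.2⟩
      q := fun c => cond c qa qb
      κ := κ, μ := μ, cross := hcross
      fix_s := fun g => hfix g s (by simp)
      fix_s' := fun g => hfix g s' (by simp)
      move := fun g a => (hβ g a x).symm
      fix_q := fun c g => by cases c; exacts [hfb g, hfa g]
      star_s := Subtype.ext hstar
      star_s' := Subtype.ext hstar'
      norm_s := hns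
      norm_xs := fun g => (StarAlgEquiv.norm_map (β g) (x : F)).trans_le hnx
      comm := hcomm
      s'_s := hs's
      s'_xs := fun g => Subtype.ext (by
        show (s' : F) * β g x = 0
        rw [← hfix g s' (by simp), ← map_mul, show (s' : F) * x = 0 from congrArg Subtype.val hs'x,
          map_zero])
      xs_s' := fun g => Subtype.ext (by
        show β g x * (s' : F) = β g x
        rw [← hfix g s' (by simp), ← map_mul]
        exact congrArg _ (congrArg Subtype.val hxs'))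
      e_xs := fun g => Subtype.ext (by
        show (e : F) * β g x = β g x
        rw [← hfix g e (by simp), ← map_mul]
        exact congrArg _ (congrArg Subtype.val hex))
      sq := fun g => Subtype.ext (by
        show star (β g x) * β g x * (s : F) = s
        have h1 : star (x : F) * x * s = s := congrArg Subtype.val hsq
        have h2 := congrArg (β g) h1
        rwa [map_mul, map_mul, map_star, hfix g s (by simp)] at h2)
      star_q := fun c => by cases c; exacts [hqb, hqa]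
      norm_q := fun c => by cases c; exacts [hqbb.symm ▸ hnb, hqaa.symm ▸ hna]
      orth := Subtype.ext (mul_eq_zero_of_sq (congrArg Subtype.val hqa) (congrArg Subtype.val hqb)
        (congrArg Subtype.val (show qa * qa * (qb * qb) = 0 by rw [hqaa, hqbb, hab]))) }
  have hlet : E.let' true = a ∧ E.let' false = b := ⟨hqaa, hqbb⟩
  have hp : (List.ofFn fun i => κ.hom i s).prod = E.marks.p :=
    (prodS_univ_eq_list (hf := E.marks.comm_s)).symm
  have hp' : (List.ofFn fun i => κ.hom i s').prod = E.marks.p' :=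
    (prodS_univ_eq_list (hf := E.marks.comm_s')).symm
  rw [hp, hp']
  -- the guard
  have hbad : (0 : F) ≤ E.bad b₀ P.Wd := sum_nonneg fun y _ => star_mul_self_nonneg _
  obtain ⟨W, hW0, hW1, hWm, hWd, hWle, hWr⟩ := hguard F β hβ _ (Coin.sqLe_iff.2 hbad)
  obtain ⟨hWp, hWbig, h, hh, hhh, hh1, hhp, hhbig, hhd⟩ :=
    E.exists_root_guard hW0 hW1 hWm hδ0 hWd
  -- the element
  obtain ⟨r, hr⟩ := Coin.sqLe_iff.2 hbad
  rw [sub_zero] at hr
  have hB : 1 ≤ b₀⁻¹ := one_le_inv₀ hb |>.2 (by linarith)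
  obtain ⟨y₀, hym, hyn, hy0, hyd, hyp', hp'y, hfixy, hylo⟩ := E.exists_row P hb hB hn hN hτ
    herr hh hh1 hhp fun c g g' =>
      E.norm_dev_source_le hr hh hhh hs0 (hTs ▸ hWr r hr.symm) c g g'
  set c := (Real.sqrt (1 + ee))⁻¹ with hc
  have hc0 : 0 ≤ c := by positivity
  have hc1 : c ≤ 1 := by
    rw [hc]; exact inv_le_one_of_one_le₀ (Real.one_le_sqrt.2 (by linarith))
  have hc2 : c * c = (1 + ee)⁻¹ := by
    rw [hc, ← mul_inv, Real.mul_self_sqrt (by linarith)]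
  have hyp2 : c • (y₀ * h) * E.marks.p' = c • (y₀ * h) := by rw [smul_mul_assoc, hyp']
  have hp2y : E.marks.p' * (c • (y₀ * h)) = 0 := by rw [mul_smul_comm, hp'y, smul_zero]
  refine ⟨c • (y₀ * h), W, h, real_smul_mem _ c (mul_mem hym hhbig), hWbig, hhbig, hW0, hW1, hh, hhh,
    hWp, hhp, ?_, fun g hg => ⟨?_, (hWd g hg).trans hδε, (hhd g hg).trans ?_⟩, ?_, hyp2, hp2y, ?_,
    fun Q hQ => by rw [mul_smul_comm, ← mul_assoc, hfixy Q hQ], fun R hR hRp hRμ => ⟨?_, ?_⟩⟩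
  · have h2 : ‖c • (y₀ * h)‖ * ‖c • (y₀ * h)‖ ≤ 1 := by
      rw [norm_smul, Real.norm_of_nonneg hc0]
      calc c * ‖y₀ * h‖ * (c * ‖y₀ * h‖) = c * c * (‖y₀ * h‖ * ‖y₀ * h‖) := by ring
        _ ≤ (1 + ee)⁻¹ * (1 + ee) := by rw [hc2]; gcongr
        _ = 1 := inv_mul_cancel₀ (by linarith)
    nlinarith [norm_nonneg (c • (y₀ * h))]
  · rw [show β g (c • (y₀ * h)) = c • β g (y₀ * h) from map_smul_real (β g).toStarAlgHom c (y₀ * h),
      ← smul_sub, norm_smul, Real.norm_of_nonneg hc0, map_mul,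
      show β g y₀ * β g h - y₀ * h = β g y₀ * (β g h - h) + (β g y₀ - y₀) * h by noncomm_ring]
    refine (mul_le_of_le_one_left (norm_nonneg _) hc1).trans ((norm_add_le _ _).trans ?_)
    obtain ⟨d1, d2⟩ := hyd g hg
    have e1 : ‖β g y₀ * (β g h - h)‖ ≤ ε / 2 := by
      refine (norm_mul_le _ _).trans (le_trans ?_ hδY)
      rw [d1, mul_comm]
      refine mul_le_mul (hhd g hg) ?_ (norm_nonneg _) (Real.sqrt_nonneg _)
      exact (Real.le_sqrt_of_sq_le (by rw [sq]; exact hy0)).trans (le_add_of_nonneg_right zero_le_one)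
    have e2 : ‖(β g y₀ - y₀) * h‖ ≤ ε / 2 :=
      (mul_self_le_mul_self_iff (norm_nonneg _) (by linarith)).2 (d2.trans he2)
    linarith
  · exact (Real.sqrt_le_sqrt hδ2).trans_eq (Real.sqrt_mul_self hε.le)
  · calc c • (y₀ * h) * (c • (y₀ * h)) = c • (y₀ * h) * E.marks.p' * (c • (y₀ * h)) := by rw [hyp2]
      _ = 0 := by rw [mul_assoc, hp2y, mul_zero]
  · refine Coin.sqLe_iff.2 ?_
    rw [star_smul, star_trivial, smul_mul_smul_comm]
    have hp2 : 0 ≤ h * (E.marks.p * E.marks.p) * h := by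
      have := star_mul_self_nonneg (E.marks.p * h)
      rw [star_mul, E.marks.star_p, hh] at this
      simpa only [mul_assoc] using this
    have h12 : (1 / 2 : ℝ) ≤ c * c := by
      rw [hc2, ← one_div]; exact one_div_le_one_div_of_le (by linarith) (by linarith)
    calc (1 / 2 : ℝ) • (h * (E.marks.p * E.marks.p) * h)
        ≤ (c * c) • (h * (E.marks.p * E.marks.p) * h) := smul_le_smul_of_nonneg_right h12 hp2
      _ ≤ (c * c) • (star (y₀ * h) * (y₀ * h) + ee • (1 : F)) :=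
          smul_le_smul_of_nonneg_left hylo (mul_nonneg hc0 hc0)
      _ ≤ _ := by
          rw [smul_add, smul_smul]
          refine add_le_add le_rfl (smul_le_smul_of_nonneg_right ?_ zero_le_one)
          exact (mul_le_of_le_one_left he.le (mul_le_one₀ hc1 hc0 hc1)).trans heε
  · intro u _ hRu hWu hκu hμu τ hτu
    have h0 : 0 ≤ (τ (⟨R, hRu⟩ * ⟨R, hRu⟩)).re := by
      have := hτu.nonneg ⟨R, hRu⟩
      rwa [show star (⟨R, hRu⟩ : Cl u) = ⟨R, hRu⟩ from Subtype.ext hR] at this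
    refine (E.trace_guard b₀ hb hθ0.le (fun c τ hτ => ?_) hT0 hWle hR hRp hRμ hRu hWu hκu hμu
      hτu).trans (mul_le_mul_of_nonneg_right htrace h0)
    cases c
    · rw [hlet.2]; exact (htr τ hτ).2
    · rw [hlet.1]; exact (htr τ hτ).1
  · exact E.witness_guard b₀ hb hb2 hn (by rw [hlet.1, h1]) (by rw [hlet.2, h2])
      (by rw [hlet.1, h3]) (by rw [hlet.2, h4]) (by rw [hlet.1, h5]) (by rw [hlet.2, h6]) hfull hT0
      hWle hwit hR hRp hRμ

end

end Vale.Agent.P095.All
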