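import Vale.Agent.P095.All.Row.Common
import Vale.Agent.P095.All.Row.Targets

/-!
# P095: the row whose two marks are exchanged by a fixed element
-/

namespace Vale.Agent.P095.All.Row

open Finset Vale.Agent.P101.KR Vale.Agent.P095.Amen Vale.Agent.P095.Amen.Row
  Vale.Agent.P095.All.RowMat

noncomputable section

variable {F : Type} [CStarAlgebra F] [Nontrivial F] [PartialOrder F] [StarOrderedRing F]

/-- Order bounds, for the element of weights `w` and for its moves. -/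
theorem rowW_bounds {G : Type} [Group G] [DecidableEq G] {n : ℕ} (M : Marks F G n) {Sg : Finset G}
    {δ : ℝ} (P : Params Sg δ 1) (hn : 0 < n) (hN : 2 * P.N ≤ n) (hτ : 2 / (n : ℝ) ≤ P.τ)
    (herr : (P.Wd.card : ℝ) ^ 4 * (2 * P.L * (8 * (P.N : ℝ) ^ 2 / n) * (2 * P.L)) ≤ δ)
    (hva : ∀ g i, ‖M.va g i‖ ≤ 1) (hvb : ∀ g i, ‖M.vb g i‖ ≤ 1)
    (hab : ∀ g h, mean (M.zb g h) = mean (M.za g h))
    (hdiag : ∀ g i, M.za g g i * M.s i = M.s i) :
    let amp := fun r => Real.sqrt (P.a r)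
    (1 - 2 * δ) • (M.p * M.p) ≤ star (rowAt M M P amp P.w) * rowAt M M P amp P.w ∧
      star (rowAt M M P amp P.w) * rowAt M M P amp P.w ≤ (1 + 2 * δ) • (M.p * M.p) ∧
      ∀ s ∈ Sg, star (rowAt M M P amp P.w - rowAt M M P amp (P.w ∘ (P.e s).symm)) *
        (rowAt M M P amp P.w - rowAt M M P amp (P.w ∘ (P.e s).symm)) ≤ (2 * δ) • (M.p * M.p) := by
  intro amp
  have hz := zA_nearGram M P.Wd hva hτ
  have hL : ∀ v : P.Wd → ℝ, (∀ g, v g ≤ 1) → ∀ g h,
      ‖coef P.f v (kerMat P.N P.a (M.zA P.Wd)) g h‖ ≤ P.L :=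
    fun v hv g h => norm_coef_zA_le M P le_rfl hva hv g h
  have hp2 : 0 ≤ M.p * M.p := by
    have h := star_mul_self_nonneg M.p
    rwa [M.star_p] at h
  have hmono : ∀ {a b : ℝ}, a ≤ b → a • (M.p * M.p) ≤ b • (M.p * M.p) := fun h =>
    smul_le_smul_of_nonneg_right h hp2
  have hL0 := P.L_nonneg
  have hw := square_between M P.Wd hn hva hvb hab hdiag hN P.a_nonneg P.a_sum (m := P.m₀)
    (c := 1) (η := δ) (L := 2 * P.L) (by linarith)
    (d := coef P.f P.w (kerMat P.N P.a (M.zA P.Wd))) (fun g h => (hL _ P.w_le g h).trans (by linarith))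
    (fun g h i => coef_comm_s' M P.Wd _ _ _ _ g h i) (by rw [one_smul]; exact P.value F _ hz)
  refine ⟨(hmono (by linarith)).trans hw.1, hw.2.trans (hmono (by linarith)), fun s hs => ?_⟩
  have hd := square_between M P.Wd hn hva hvb hab hdiag hN P.a_nonneg P.a_sum (m := P.m s)
    (c := 0) (η := δ) (L := 2 * P.L) (by linarith)
    (d := coef P.f P.w (kerMat P.N P.a (M.zA P.Wd)) -
      coef P.f (P.w ∘ (P.e s).symm) (kerMat P.N P.a (M.zA P.Wd)))
    (fun g h => by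
      rw [Matrix.sub_apply]
      refine (norm_sub_le _ _).trans ((add_le_add (hL _ P.w_le g h)
        (hL _ (fun g => P.w_le _) g h)).trans_eq (two_mul _).symm))
    (fun g h i => by
      rw [Matrix.sub_apply]
      exact (coef_comm_s' M P.Wd _ _ _ _ g h i).sub_left (coef_comm_s' M P.Wd _ _ _ _ g h i))
    (by rw [zero_smul, sub_zero]; exact P.diff s hs F _ hz)
  rw [rowAt_sub]
  exact hd.2.trans (hmono (by linarith))

omit [Nontrivial F] in
theorem norm_sq_le {y p : F} (hp : ‖p‖ ≤ 1) {c : ℝ} (hc : 0 ≤ c)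
    (h : star y * y ≤ c • (p * p)) : ‖y‖ * ‖y‖ ≤ c := by
  have h2 := CStarAlgebra.norm_le_norm_of_nonneg_of_le (star_mul_self_nonneg y) h
  rw [CStarRing.norm_star_mul_self, norm_smul, Real.norm_of_nonneg hc] at h2
  refine h2.trans (mul_le_of_le_one_right hc ?_)
  exact (norm_mul_le _ _).trans (mul_le_one₀ hp (norm_nonneg _) hp)

end

end Vale.Agent.P095.All.Row

namespace Vale.Agent.P095.All

open Finset Vale.Agent.P101.KR Vale.Agent.P095.Amen Vale.Agent.P095.Amen.Row Row RowMat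

noncomputable section

variable {G : Type} [Group G] {F : Type} [CStarAlgebra F]

omit [Group G] in
theorem map_mem_Cl_of {β : G → F ≃⋆ₐ[ℂ] F} {t : Set F} (hβt : ∀ g, β g '' t = t) (g : G) {z : F}
    (hz : z ∈ Cl t) : β g z ∈ Cl t := by
  have hle : Cl t ≤ StarSubalgebra.comap (β g).toStarAlgHom (Cl t) := by
    refine StarSubalgebra.topologicalClosure_minimal (StarAlgebra.adjoin_le fun z hz => ?_) ?_
    · show β g z ∈ Cl t
      exact StarSubalgebra.le_topologicalClosure _ (StarAlgebra.subset_adjoin ℂ t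
        (hβt g ▸ ⟨z, hz, rfl⟩))
    · exact (isClosed_Cl t).preimage (StarAlgEquiv.isometry (β g)).continuous
  exact hle hz

/-- The data of the exchanged marks at every group element. -/
structure Exch (β : G → F ≃⋆ₐ[ℂ] F) (t : Set F) (n : ℕ) where
  s : Cl t
  s' : Cl t
  m : Cl t
  e : Cl t
  W : Cl t
  xs : G → Cl t
  κ : Copies' β t (Fin n)
  U : Fin n → F
  fix_s : ∀ g, β g s = s
  fix_W : ∀ g, β g W = W
  move : ∀ g a, β g (xs a) = xs (g * a)
  star_s : star s = s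
  star_s' : star s' = s'
  norm_s : ‖s‖ ≤ 1
  norm_xs : ∀ g, ‖xs g‖ ≤ 1
  comm : Commute s s'
  s'_s : s' * s = s
  s'_xs : ∀ g, s' * xs g = 0
  xs_s' : ∀ g, xs g * s' = xs g
  W_s' : Commute W s'
  m_xs : ∀ g, m * xs g = xs g
  W_m : star W * (W * m) = m
  m_W_m : star m * (W * m) = 0
  e_m : e * m = m
  e_W_m : e * (W * m) = W * m
  sq : ∀ g, star (xs g) * xs g * s = s
  fix_U : ∀ i g, β g (U i) = U i
  U_s' : ∀ i j, Commute (U i) (κ.hom j s')
  U_e : ∀ i, star (U i) * (U i * κ.hom i e) = κ.hom i e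

namespace Exch

variable {β : G → F ≃⋆ₐ[ℂ] F} {t : Set F} {n : ℕ} (E : Exch β t n)

theorem e_xs (g : G) : E.e * E.xs g = E.xs g := by
  conv_lhs => rw [← E.m_xs g, ← mul_assoc, E.e_m]
  exact E.m_xs g

theorem e_W_xs (g : G) : E.e * (E.W * E.xs g) = E.W * E.xs g := by
  conv_lhs => rw [← E.m_xs g, ← mul_assoc E.W, ← mul_assoc, E.e_W_m, mul_assoc, E.m_xs g]

theorem star_W_xs (g h : G) : star (E.W * E.xs g) * (E.W * E.xs h) = star (E.xs g) * E.xs h := by
  rw [star_mul, mul_assoc]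
  congr 1
  conv_lhs => rw [← E.m_xs h, ← mul_assoc E.W, ← mul_assoc, E.W_m, E.m_xs h]

theorem norm_W_xs (g : G) : ‖E.W * E.xs g‖ ≤ 1 := by
  have h1 := congrArg (fun z => ‖z‖) (E.star_W_xs g g)
  simp only [CStarRing.norm_star_mul_self] at h1
  have := E.norm_xs g
  nlinarith [norm_nonneg (E.W * E.xs g), norm_nonneg (E.xs g)]

theorem U_under (i : Fin n) {v : Cl t} (hv : E.e * v = v) :
    star (E.U i) * (E.U i * E.κ.hom i v) = E.κ.hom i v := by
  conv_lhs => rw [← hv, map_mul, ← mul_assoc (E.U i), ← mul_assoc, E.U_e]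
  rw [← map_mul, hv]

/-- The marks. -/
def marks : Marks F G n where
  A i := (E.κ.hom i).range
  comm i j hij := by rintro _ ⟨u, rfl⟩ _ ⟨v, rfl⟩; exact E.κ.comm i j hij u v
  va g i := E.κ.hom i (E.xs g)
  vb g i := E.κ.hom i (E.W * E.xs g)
  s i := E.κ.hom i E.s
  s' i := E.κ.hom i E.s'
  U := E.U
  va_mem g i := ⟨_, rfl⟩
  vb_mem g i := ⟨_, rfl⟩
  s_mem i := ⟨_, rfl⟩
  s'_mem i := ⟨_, rfl⟩
  star_s i := (map_star _ _).symm.trans (congrArg _ E.star_s)
  star_s' i := (map_star _ _).symm.trans (congrArg _ E.star_s')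
  comm_ss' i := E.comm.map (E.κ.hom i)
  s'_s i := by rw [← map_mul, E.s'_s]
  s'_va g i := by rw [← map_mul, E.s'_xs, map_zero]
  va_s' g i := by rw [← map_mul, E.xs_s']
  s'_vb g i := by
    rw [← map_mul, ← mul_assoc, ← E.W_s'.eq, mul_assoc, E.s'_xs, mul_zero, map_zero]
  vb_s' g i := by rw [← map_mul, mul_assoc, E.xs_s']
  va_vb g h i := by
    rw [← map_star, ← map_mul, ← E.m_xs g, ← E.m_xs h, star_mul, ← mul_assoc E.W, mul_assoc,
      ← mul_assoc (star E.m), E.m_W_m]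
    simp
  U_s' i j := E.U_s' i j
  U_va g i := E.U_under i (E.e_xs g)
  U_vb g i := E.U_under i (E.e_W_xs g)

theorem norm_hom_le (i : Fin n) {b : Cl t} (hb : ‖b‖ ≤ 1) : ‖E.κ.hom i b‖ ≤ 1 :=
  (NonUnitalStarAlgHom.norm_apply_le (E.κ.hom i) b).trans hb

theorem zb_eq_za (g h : G) : mean (E.marks.zb g h) = mean (E.marks.za g h) := by
  refine congrArg mean (funext fun i => ?_)
  show star (E.κ.hom i (E.W * E.xs g)) * E.κ.hom i (E.W * E.xs h)
    = star (E.κ.hom i (E.xs g)) * E.κ.hom i (E.xs h)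
  rw [← map_star, ← map_mul, ← map_star, ← map_mul, E.star_W_xs]

theorem za_diag (g : G) (i : Fin n) : E.marks.za g g i * E.marks.s i = E.marks.s i := by
  show star (E.κ.hom i (E.xs g)) * E.κ.hom i (E.xs g) * E.κ.hom i E.s = E.κ.hom i E.s
  rw [← map_star, ← map_mul, ← map_mul, E.sq]

theorem fix_row [DecidableEq G] {Sg : Finset G} {δ : ℝ} (P : Params Sg δ 1) (amp : ℕ → ℝ) {Q : F}
    (hQ : ∀ i, Q * (E.U i * E.κ.hom i E.e) = E.U i * E.κ.hom i E.e) :
    Q * rowAt E.marks E.marks P amp P.w = rowAt E.marks E.marks P amp P.w := by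
  have hQe : ∀ i {v : Cl t}, E.e * v = v → Q * (E.U i * E.κ.hom i v) = E.U i * E.κ.hom i v :=
    fun i v hv => by
      conv_lhs => rw [← hv, map_mul, ← mul_assoc (E.U i), ← mul_assoc, hQ]
      rw [mul_assoc, ← map_mul, hv]
  exact E.marks.fix_elem _ _ _ _ _ fun g i => ⟨hQe i (E.e_xs g), hQe i (E.e_W_xs g)⟩

theorem mem_row [DecidableEq G] {Sg : Finset G} {δ : ℝ} (P : Params Sg δ 1) (amp : ℕ → ℝ) :
    rowAt E.marks E.marks P amp P.w ∈ Cl ((⋃ i, Set.range (E.κ.hom i)) ∪ Set.range E.U) := by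
  have hgen : ∀ z ∈ (⋃ i, Set.range (E.κ.hom i)) ∪ Set.range E.U,
      z ∈ Cl ((⋃ i, Set.range (E.κ.hom i)) ∪ Set.range E.U) := fun z hz =>
    StarSubalgebra.le_topologicalClosure _ (StarAlgebra.subset_adjoin ℂ _ hz)
  have hk : ∀ i z, E.κ.hom i z ∈ Cl ((⋃ i, Set.range (E.κ.hom i)) ∪ Set.range E.U) := fun i z =>
    hgen _ (Or.inl (Set.mem_iUnion.2 ⟨i, z, rfl⟩))
  exact rowAt_mem E.marks E.marks P amp P.w _ (fun g i => hk i _) (fun g i => hk i _)
    (fun g i => hk i _) (fun i => hk i _)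
    fun i => hgen _ (Or.inr ⟨i, rfl⟩)

theorem map_row [DecidableEq G] {Sg : Finset G} {δ : ℝ} (P : Params Sg δ 1) (amp : ℕ → ℝ) {g : G}
    (hg : g ∈ Sg) :
    β g (rowAt E.marks E.marks P amp P.w) = rowAt E.marks E.marks P amp (P.w ∘ (P.e g).symm) :=
  map_rowAt E.marks E.marks P amp hg (β g).toStarAlgHom
    (fun a i => E.κ.equiv i g _ _ (E.move g a))
    (fun a i => E.κ.equiv i g _ _ (by
      show β g ((E.W : F) * E.xs a) = (E.W : F) * E.xs (g * a)
      rw [map_mul, E.fix_W, E.move]))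
    (fun i => E.fix_U i g) (fun a i => E.κ.equiv i g _ _ (E.move g a))
    fun i => E.κ.equiv i g _ _ (E.fix_s g)

theorem p_eq : E.marks.p = (List.ofFn fun i => E.κ.hom i E.s).prod := prodS_univ_eq_list

theorem p'_eq : E.marks.p' = (List.ofFn fun i => E.κ.hom i E.s').prod := prodS_univ_eq_list

/-- The element, from the bounds. -/
theorem exists_row [Nontrivial F] [DecidableEq G] {Sg : Finset G} {δ ε : ℝ} (P : Params Sg δ 1)
    (hδ : 0 ≤ δ) (hδ4 : δ ≤ 1 / 16) (hε : 0 ≤ ε) (hδε : 2 * δ ≤ ε * ε) (hn : 0 < n)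
    (hN : 2 * P.N ≤ n) (hτ : 2 / (n : ℝ) ≤ P.τ)
    (herr : (P.Wd.card : ℝ) ^ 4 * (2 * P.L * (8 * (P.N : ℝ) ^ 2 / n) * (2 * P.L)) ≤ δ) :
    ∃ y : F, y ∈ Cl ((⋃ i, Set.range (E.κ.hom i)) ∪ Set.range E.U) ∧ ‖y‖ ≤ 1 ∧
      (∀ g ∈ Sg, ‖β g y - y‖ ≤ ε) ∧ y * y = 0 ∧ y * E.marks.p' = y ∧ E.marks.p' * y = 0 ∧
      SqLe ((1 / 2 : ℝ) • (E.marks.p * E.marks.p)) (star y * y) ∧
      ∀ Q : F, (∀ i, Q * (E.U i * E.κ.hom i E.e) = E.U i * E.κ.hom i E.e) → Q * y = y := by
  let _ : PartialOrder F := CStarAlgebra.spectralOrder F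
  have : StarOrderedRing F := CStarAlgebra.spectralOrderedRing F
  obtain ⟨hlo, hup, hd⟩ := rowW_bounds E.marks P hn hN hτ herr
    (fun g i => E.norm_hom_le i (E.norm_xs g)) (fun g i => E.norm_hom_le i (E.norm_W_xs g))
    E.zb_eq_za E.za_diag
  set amp := fun r => Real.sqrt (P.a r)
  set y₀ := rowAt E.marks E.marks P amp P.w with hy₀
  have hp1 : ‖E.marks.p‖ ≤ 1 := norm_p_le E.marks fun i => E.norm_hom_le i E.norm_s
  set c := (Real.sqrt (1 + 2 * δ))⁻¹ with hc
  have hc2 : c * c = (1 + 2 * δ)⁻¹ := by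
    rw [hc, ← mul_inv, Real.mul_self_sqrt (by linarith)]
  have hc0 : 0 ≤ c := by positivity
  have hc1 : c ≤ 1 := by
    rw [hc]; exact inv_le_one_of_one_le₀ (Real.one_le_sqrt.2 (by linarith))
  have hy1 : ‖c • y₀‖ ≤ 1 := by
    have h1 := norm_sq_le hp1 (by linarith) hup
    have h2 : ‖c • y₀‖ * ‖c • y₀‖ ≤ 1 := by
      rw [norm_smul, Real.norm_of_nonneg hc0]
      calc c * ‖y₀‖ * (c * ‖y₀‖) = c * c * (‖y₀‖ * ‖y₀‖) := by ring
        _ ≤ (1 + 2 * δ)⁻¹ * (1 + 2 * δ) := by rw [hc2]; gcongr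
        _ = 1 := inv_mul_cancel₀ (by linarith)
    nlinarith [norm_nonneg (c • y₀)]
  have hyp' : c • y₀ * E.marks.p' = c • y₀ := by
    rw [smul_mul_assoc]
    exact congrArg (c • ·) (E.marks.elem_p' P.N amp amp P.Wd _)
  have hp'y : E.marks.p' * (c • y₀) = 0 := by
    rw [mul_smul_comm]
    exact (congrArg (c • ·) (E.marks.p'_elem P.N amp amp P.Wd _)).trans (smul_zero c)
  refine ⟨c • y₀, real_smul_mem _ c (E.mem_row P amp), hy1, fun g hg => ?_, ?_, hyp', hp'y, ?_,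
    fun Q hQ => by rw [mul_smul_comm, E.fix_row P amp hQ]⟩
  · rw [show β g (c • y₀) = c • β g y₀ from map_smul_real (β g).toStarAlgHom c y₀,
      E.map_row P amp hg, ← smul_sub, norm_smul, Real.norm_of_nonneg hc0, norm_sub_rev]
    have h1 := norm_sq_le hp1 (by linarith) (hd g hg)
    refine (mul_le_of_le_one_left (norm_nonneg _) hc1).trans ?_
    nlinarith [norm_nonneg (y₀ - rowAt E.marks E.marks P amp (P.w ∘ (P.e g).symm))]
  · calc c • y₀ * (c • y₀) = c • y₀ * E.marks.p' * (c • y₀) := by rw [hyp']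
      _ = 0 := by rw [mul_assoc, hp'y, mul_zero]
  · refine CStarAlgebra.nonneg_iff_eq_star_mul_self.1 (sub_nonneg.2 ?_)
    rw [star_smul, star_trivial, smul_mul_smul_comm]
    refine le_trans ?_ (smul_le_smul_of_nonneg_left hlo (by positivity))
    rw [smul_smul]
    refine smul_le_smul_of_nonneg_right ?_ (by
      have h := star_mul_self_nonneg E.marks.p
      rwa [E.marks.star_p] at h)
    rw [hc2, inv_mul_eq_div, le_div_iff₀ (by linarith)]
    linarith

end Exch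

/-- The row with exchanged marks. -/
theorem rowW_of : RowWTarget := by
  intro G _ Sg hAm ε hε
  classical
  set δ := min (1 / 16) (ε * ε / 2) with hδdef
  have hδ : 0 < δ := lt_min (by norm_num) (by positivity)
  obtain ⟨P⟩ := exists_params hAm Sg hδ zero_le_one
  set C : ℝ := 2 / P.τ + (P.Wd.card : ℝ) ^ 4 * (2 * P.L * (8 * (P.N : ℝ) ^ 2) * (2 * P.L)) / δ with hC
  refine ⟨⌈C⌉₊ + 2 * P.N + 1, by omega, ?_⟩
  set n := ⌈C⌉₊ + 2 * P.N + 1 with hn_def
  intro F _ β hβ t _ hβt s s' m e W x hfix hstar hstar' hns _hns' hnx hcomm hs's hs'x hxs' hWs'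
    hmx hWm hmWm hem heWm hsq κ U hU hUs hUe
  rcases subsingleton_or_nontrivial F with h | h
  · exact ⟨0, zero_mem _, by simp, fun _ _ => by simp [hε.le], Subsingleton.elim _ _,
      Subsingleton.elim _ _, Subsingleton.elim _ _, ⟨0, Subsingleton.elim _ _⟩,
      fun _ _ => Subsingleton.elim _ _⟩
  have hn : 0 < n := by omega
  have hnR : C ≤ n := (Nat.le_ceil _).trans (by rw [hn_def]; exact_mod_cast (by omega))
  have hn' : (0 : ℝ) < n := by exact_mod_cast hn
  have hL0 := P.L_nonneg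
  have hterm : 0 ≤ (P.Wd.card : ℝ) ^ 4 * (2 * P.L * (8 * (P.N : ℝ) ^ 2) * (2 * P.L)) / δ := by
    positivity
  have hτ : 2 / (n : ℝ) ≤ P.τ := by
    have h1 : 2 / P.τ ≤ n := le_trans (by linarith) hnR
    rw [div_le_iff₀ P.τ_pos] at h1
    rw [div_le_iff₀ hn']
    linarith
  have herr : (P.Wd.card : ℝ) ^ 4 * (2 * P.L * (8 * (P.N : ℝ) ^ 2 / n) * (2 * P.L)) ≤ δ := by
    have h1 : (P.Wd.card : ℝ) ^ 4 * (2 * P.L * (8 * (P.N : ℝ) ^ 2) * (2 * P.L)) / δ ≤ n :=
      le_trans (by linarith [div_pos two_pos P.τ_pos]) hnR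
    rw [div_le_iff₀ hδ] at h1
    rw [show (P.Wd.card : ℝ) ^ 4 * (2 * P.L * (8 * (P.N : ℝ) ^ 2 / n) * (2 * P.L))
      = (P.Wd.card : ℝ) ^ 4 * (2 * P.L * (8 * (P.N : ℝ) ^ 2) * (2 * P.L)) / n by ring,
      div_le_iff₀ hn']
    linarith
  let E : Exch β t n :=
    { s := s, s' := s', m := m, e := e, W := W
      xs := fun g => ⟨β g (x : F), map_mem_Cl_of hβt g x.2⟩
      κ := κ, U := U
      fix_s := fun g => hfix g s (by simp)
      fix_W := fun g => hfix g W (by simp)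
      move := fun g a => (hβ g a x).symm
      star_s := Subtype.ext hstar
      star_s' := Subtype.ext hstar'
      norm_s := hns
      norm_xs := fun g => (StarAlgEquiv.norm_map (β g) (x : F)).trans_le hnx
      comm := hcomm
      s'_s := hs's
      s'_xs := fun g => Subtype.ext (by
        show (s' : F) * β g x = 0
        rw [← hfix g s' (by simp), ← map_mul, show (s' : F) * x = 0 from congrArg Subtype.val hs'x,
          map_zero])
      xs_s' := fun g => Subtype.ext (by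
        show β g x * (s' : F) = β g x
        rw [← hfix g s' (by simp), ← map_mul]
        exact congrArg _ (congrArg Subtype.val hxs'))
      W_s' := hWs'
      m_xs := fun g => Subtype.ext (by
        show (m : F) * β g x = β g x
        rw [← hfix g m (by simp), ← map_mul]
        exact congrArg _ (congrArg Subtype.val hmx))
      W_m := hWm
      m_W_m := hmWm
      e_m := hem
      e_W_m := heWm
      sq := fun g => Subtype.ext (by
        show star (β g x) * β g x * (s : F) = s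
        have h1 : star (x : F) * x * s = s := congrArg Subtype.val hsq
        have h2 := congrArg (β g) h1
        rwa [map_mul, map_mul, map_star, hfix g s (by simp)] at h2)
      fix_U := hU
      U_s' := fun i j => (hUs i j).2
      U_e := hUe }
  obtain ⟨y, h1, h2, h3, h4, h5, h6, h7, h8⟩ := E.exists_row P hδ.le (min_le_left _ _) hε.le
    (by linarith [min_le_right (1 / 16) (ε * ε / 2)]) hn (by omega) hτ herr
  exact ⟨y, h1, h2, h3, h4, E.p'_eq ▸ h5, E.p'_eq ▸ h6, E.p_eq ▸ h7, h8⟩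

end

end Vale.Agent.P095.All
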