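import Vale.Agent.P095.All.Row.Mean
import Vale.Agent.P095.All.RowMat.Transfer

/-!
# P095 row elements for amenable groups: bounds when the two means agree
-/

namespace Vale.Agent.P095.All.Row

open Finset Vale.Agent.P095.Amen.Row Vale.Agent.P095.Amen Vale.Agent.P095.All.RowMat
open scoped ComplexConjugate

noncomputable section

theorem coef_mem {F κ : Type} [CStarAlgebra F] [Fintype κ] [DecidableEq κ]
    (S : StarSubalgebra ℂ F) (q : Polynomial ℝ) (w : κ → ℝ) {K : Matrix κ κ F}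
    (hK : ∀ g h, K g h ∈ S) (g h : κ) : coef q w K g h ∈ S := by
  let K' : Matrix κ κ S := fun g h => ⟨K g h, hK g h⟩
  have e := congrFun (congrFun (coef_map S.subtype.toAlgHom q w K') g) h
  exact (show ((coef q w K' g h : S) : F) = coef q w K g h from e) ▸ (coef q w K' g h).2

theorem kerMat_mem {F κ : Type} [CStarAlgebra F] (S : StarSubalgebra ℂ F) (N : ℕ) (a : ℕ → ℝ)
    {z : κ → κ → F} (hz : ∀ g h, z g h ∈ S) (g h : κ) : kerMat N a z g h ∈ S :=
  show ∑ r ∈ range N, (a r : ℂ) • z g h ^ (r + 1) ∈ S from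
    sum_mem fun _ _ => SMulMemClass.smul_mem _ (pow_mem (hz g h) _)

theorem kerMat_eq {F κ : Type} [CStarAlgebra F] (N : ℕ) (a : ℕ → ℝ) (z : κ → κ → F) (g h : κ) :
    kerMat N a z g h = kF N a (z g h) :=
  show ∑ r ∈ range N, (a r : ℂ) • z g h ^ (r + 1) = ∑ r ∈ range N, a r • z g h ^ (r + 1) from
  sum_congr rfl fun _ _ => Complex.coe_smul _ _

variable {F ι : Type} [CStarAlgebra F] {n : ℕ} (M : Marks F ι n) (Wd : Finset ι)

/-- The matrix of the means of the first marks. -/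
def Marks.zA : Wd → Wd → F := fun g h => mean (M.za g h)

theorem zA_nearGram (hva : ∀ g i, ‖M.va g i‖ ≤ 1) {τ : ℝ} (hτ : 2 / (n : ℝ) ≤ τ) :
    NearGram τ (M.zA Wd) where
  norm g h := norm_mean_le fun i => M.norm_za_le hva g h i
  symm g h := by
    show star (mean _) = mean _
    rw [star_mean]
    exact congrArg mean (funext fun i => by simp [Marks.za])
  comm g h k l := (norm_comm_mean (M.norm_za_le hva g h) (M.norm_za_le hva k l)
    fun _ _ e => M.commF (M.za_mem g h) (M.za_mem k l) e).trans hτ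
  pos c := by
    obtain ⟨d, hd⟩ := gram_mean_pos (fun g : Wd => M.va g) c
    exact ⟨d, (sub_zero _).trans hd⟩

theorem qProd_p [DecidableEq ι] (hn : 0 < n)
    (hdiag : ∀ g i, M.za g g i * M.s i = M.s i) (m : ℕ) : qProd m (M.zA Wd) * M.p = M.p := by
  rw [qProd]
  induction (Finset.univ : Finset Wd).toList with
  | nil => simp
  | cons g l ih =>
    rw [List.map_cons, List.prod_cons, mul_assoc, ih]
    clear ih
    induction m with
    | zero => simp
    | succ m ihm => rw [pow_succ, mul_assoc, Marks.zA, M.mean_za_p g hn (hdiag g)]; exact ihm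

theorem norm_pow_le_one [Nontrivial F] {z : F} (hz : ‖z‖ ≤ 1) (k : ℕ) : ‖z ^ k‖ ≤ 1 := by
  induction k with
  | zero => simp
  | succ k ih => rw [pow_succ]; exact (norm_mul_le _ _).trans (mul_le_one₀ ih (norm_nonneg _) hz)

theorem norm_qProd_le [Nontrivial F] [DecidableEq ι] (hva : ∀ g i, ‖M.va g i‖ ≤ 1) (m : ℕ) :
    ‖qProd m (M.zA Wd)‖ ≤ 1 := by
  rw [qProd]
  induction (Finset.univ : Finset Wd).toList with
  | nil => simp
  | cons g l ih =>
    rw [List.map_cons, List.prod_cons]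
    exact (norm_mul_le _ _).trans (mul_le_one₀
      (norm_pow_le_one (norm_mean_le fun i => M.norm_za_le hva g g i) m) (norm_nonneg _) ih)

theorem zA_comm_s' (g h : Wd) (j : Fin n) : Commute (M.zA Wd g h) (M.s' j) :=
  commute_mean fun i => M.za_s' g h i j

theorem coef_comm_s' [DecidableEq ι] (q : Polynomial ℝ) (N : ℕ) (a : ℕ → ℝ) (w : Wd → ℝ)
    (g h : Wd) (j : Fin n) : Commute (coef q w (kerMat N a (M.zA Wd)) g h) (M.s' j) := by
  have hz : ∀ g h, M.zA Wd g h ∈ StarSubalgebra.centralizer ℂ ({M.s' j} : Set F) := fun g h => by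
    rw [StarSubalgebra.mem_centralizer_iff]
    rintro x rfl
    exact ⟨(zA_comm_s' M Wd g h j).eq.symm,
      by rw [M.star_s']; exact (zA_comm_s' M Wd g h j).eq.symm⟩
  have h1 := coef_mem _ q w (kerMat_mem _ N a hz) g h
  rw [StarSubalgebra.mem_centralizer_iff] at h1
  exact ((h1 _ rfl).1).symm

theorem norm_p_le [Nontrivial F] (hs : ∀ i, ‖M.s i‖ ≤ 1) : ‖M.p‖ ≤ 1 := norm_prodS_le hs _

/-- The kernel of the marks is close to the product of the kernels of the means. -/
theorem norm_formK_sub [Nontrivial F] [DecidableEq ι] (hva : ∀ g i, ‖M.va g i‖ ≤ 1)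
    (hvb : ∀ g i, ‖M.vb g i‖ ≤ 1) (hab : ∀ g h, mean (M.zb g h) = mean (M.za g h))
    {N : ℕ} (hN : 2 * N ≤ n) {a : ℕ → ℝ} (ha : ∀ r, 0 ≤ a r) (ha1 : ∑ r ∈ Finset.range N, a r = 1)
    {L : ℝ} (hL : 0 ≤ L) {d : Matrix Wd Wd F} (hd : ∀ g h, ‖d g h‖ ≤ L) :
    ‖M.formK N (fun r => Real.sqrt (a r)) (fun r => Real.sqrt (a r)) Wd d d
        - fF (kerMat N a (M.zA Wd)) d‖
      ≤ (Wd.card : ℝ) ^ 4 * (L * (8 * (N : ℝ) ^ 2 / n) * L) := by
  refine le_of_eq_of_le (by rfl) ((norm_formW_sub _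
    (fun g g' h h' => kerMat N a (M.zA Wd) g g' * kerMat N a (M.zA Wd) h h') _ _ hL
    (δ := 8 * (N : ℝ) ^ 2 / n) (fun g g' h h' => ?_) hd hd).trans_eq (by rw [Fintype.card_coe]))
  have h := M.norm_ker_sub hva hvb hN (fun r => Real.sqrt (a r)) (fun r => Real.sqrt (a r))
    (g : ι) g' h h'
  simp only [Real.sq_sqrt (ha _), ha1, one_mul, hab] at h
  rw [kerMat_eq, kerMat_eq]
  exact h

variable [PartialOrder F] [StarOrderedRing F]

/-- From an estimate at the means to the order bounds of the square. -/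
theorem square_between [Nontrivial F] [DecidableEq ι] (hn : 0 < n)
    (hva : ∀ g i, ‖M.va g i‖ ≤ 1) (hvb : ∀ g i, ‖M.vb g i‖ ≤ 1)
    (hab : ∀ g h, mean (M.zb g h) = mean (M.za g h))
    (hdiag : ∀ g i, M.za g g i * M.s i = M.s i)
    {N : ℕ} (hN : 2 * N ≤ n) {a : ℕ → ℝ} (ha : ∀ r, 0 ≤ a r) (ha1 : ∑ r ∈ Finset.range N, a r = 1)
    {m : ℕ} {c η L : ℝ} (hL : 0 ≤ L) {d : Matrix Wd Wd F} (hdn : ∀ g h, ‖d g h‖ ≤ L)
    (hdc : ∀ g h i, Commute (d g h) (M.s' i))
    (hη : ‖star (qProd m (M.zA Wd)) * (fF (kerMat N a (M.zA Wd)) d - c • 1) *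
      qProd m (M.zA Wd)‖ ≤ η) :
    let y := M.elem N (fun r => Real.sqrt (a r)) (fun r => Real.sqrt (a r)) Wd d
    let e := η + (Wd.card : ℝ) ^ 4 * (L * (8 * (N : ℝ) ^ 2 / n) * L)
    (c - e) • (M.p * M.p) ≤ star y * y ∧ star y * y ≤ (c + e) • (M.p * M.p) := by
  intro y e
  set Q := qProd m (M.zA Wd) with hQ
  set Φ := M.formK N (fun r => Real.sqrt (a r)) (fun r => Real.sqrt (a r)) Wd d d with hΦ
  set X := star Q * (Φ - c • 1) * Q with hX
  have hQp : Q * M.p = M.p := qProd_p M Wd hn hdiag m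
  have hpQ : M.p * star Q = M.p := by
    have := congrArg star hQp
    rwa [star_mul, M.star_p] at this
  have hsq : star y * y = M.p * Φ * M.p := M.star_elem_mul_elem N _ _ hdc hdc
  have he : M.p * X * M.p = star y * y - c • (M.p * M.p) := by
    rw [hX, hsq]
    calc M.p * (star Q * (Φ - c • 1) * Q) * M.p
        = M.p * star Q * (Φ - c • 1) * (Q * M.p) := by simp only [mul_assoc]
      _ = _ := by rw [hpQ, hQp, mul_sub, sub_mul, mul_smul_comm, mul_one, smul_mul_assoc]
  have hXn : ‖X‖ ≤ e := by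
    have h1 : X = star Q * (fF (kerMat N a (M.zA Wd)) d - c • 1) * Q
        + star Q * (Φ - fF (kerMat N a (M.zA Wd)) d) * Q := by
      rw [hX, ← add_mul, ← mul_add]; congr 2; abel
    rw [h1]
    refine (norm_add_le _ _).trans (add_le_add hη ?_)
    have hQ1 := norm_qProd_le M Wd hva m
    refine (norm_mul_le _ _).trans ((mul_le_of_le_one_right (norm_nonneg _) hQ1).trans ?_)
    refine (norm_mul_le _ _).trans ((mul_le_of_le_one_left (norm_nonneg _) ?_).trans
      (norm_formK_sub M Wd hva hvb hab hN ha ha1 hL hdn))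
    rw [norm_star]; exact hQ1
  have hsa : IsSelfAdjoint (M.p * X * M.p) := by
    rw [he]
    exact (IsSelfAdjoint.star_mul_self y).sub ((IsSelfAdjoint.all c).smul
      (show IsSelfAdjoint (M.p * M.p) by
        show star _ = _
        rw [star_mul, M.star_p]))
  obtain ⟨hu, hl⟩ := conj_between M.star_p hsa hXn
  rw [he] at hu hl
  constructor
  · rw [sub_smul, sub_eq_add_neg]
    have := add_le_add_right hl (c • (M.p * M.p))
    simpa [add_comm] using this
  · rw [add_smul]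
    have := add_le_add_right hu (c • (M.p * M.p))
    simpa [add_comm] using this

end

end Vale.Agent.P095.All.Row
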