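import Vale.Agent.P095.All.Row.Shift
import Vale.Agent.P095.All.RowMat.Transfer
import Vale.Agent.P095.All.RowMat.Lip

/-!
# P095 row elements for amenable groups: the choices that do not depend on the algebra

A Følner window with its weights and permutations, the polynomial, the kernel, and the constants.
-/

namespace Vale.Agent.P095.All.Row

open Finset Vale.Agent.P095.All.RowMat

noncomputable section

variable {G : Type} [Group G] [DecidableEq G]

/-- The data chosen from the group and the accuracy. -/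
structure Params (S : Finset G) (δ B : ℝ) where
  Wd : Finset G
  one_le : 1 ≤ Wd.card
  w : Wd → ℝ
  w_nonneg : ∀ g, 0 ≤ w g
  w_sum : ∑ g, w g = 1
  e : G → Equiv.Perm Wd
  e_apply : ∀ s ∈ S, ∀ g : Wd, w g ≠ 0 → (e s g : G) = s * g
  f : Polynomial ℝ
  N : ℕ
  a : ℕ → ℝ
  a_nonneg : ∀ r, 0 ≤ a r
  a_sum : ∑ r ∈ Finset.range N, a r = 1
  m₀ : ℕ
  m : G → ℕ
  τ : ℝ
  τ_pos : 0 < τ
  value : ∀ (F : Type) [CStarAlgebra F] (z : Wd → Wd → F), NearGram τ z →
    ‖errOne f N a w m₀ z‖ ≤ δ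
  diff : ∀ s ∈ S, ∀ (F : Type) [CStarAlgebra F] (z : Wd → Wd → F), NearGram τ z →
    ‖errDiff f N a w (w ∘ (e s).symm) (m s) z‖ ≤ δ
  L : ℝ
  L_nonneg : 0 ≤ L
  lip : ∀ (F : Type) [CStarAlgebra F] (D : F) (η : ℝ), 0 ≤ η → ∀ v : Wd → ℝ, (∀ g, v g ≤ 1) →
    ∀ z z' : Wd → Wd → F, (∀ g h, Ctl D B η (z g h) (z' g h)) → ∀ g h,
      Ctl D L (L * η) (kerMat N a z g h) (kerMat N a z' g h) ∧
        Ctl D L (L * η) (coef f v (kerMat N a z) g h) (coef f v (kerMat N a z') g h)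

theorem Params.w_le {S : Finset G} {δ B : ℝ} (P : Params S δ B) (g : P.Wd) : P.w g ≤ 1 :=
  (single_le_sum (fun j _ => P.w_nonneg j) (mem_univ g)).trans_eq P.w_sum

omit [DecidableEq G] in
theorem exists_params (hAm : IsAmenable G) [DecidableEq G] (S : Finset G) {δ B : ℝ} (hδ : 0 < δ)
    (hB : 0 ≤ B) : Nonempty (Params S δ B) := by
  obtain ⟨K0, hne, hK0⟩ := hAm S (δ / 4) (by positivity)
  set Wd := K0 ∪ S.biUnion (fun s => K0.image (s * ·)) with hWd
  have hK : K0 ⊆ Wd := subset_union_left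
  have hsK : ∀ s ∈ S, ∀ g ∈ K0, s * g ∈ Wd := fun s hs g hg =>
    mem_union_right _ (mem_biUnion.2 ⟨s, hs, mem_image_of_mem _ hg⟩)
  set w : Wd → ℝ := fun g => if (g : G) ∈ K0 then (K0.card : ℝ)⁻¹ else 0 with hw
  have hw0 : ∀ g, 0 ≤ w g := fun g => by simp only [hw]; split_ifs <;> positivity
  have hwsum : ∑ g, w g = 1 := by
    rw [hw, Finset.sum_coe_sort Wd (fun g => if g ∈ K0 then (K0.card : ℝ)⁻¹ else 0),
      sum_ite_mem, inter_eq_right.2 hK, sum_const, nsmul_eq_mul,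
      mul_inv_cancel₀ (by exact_mod_cast hne.card_pos.ne')]
  have hperm : ∀ s : G, ∃ e : Equiv.Perm Wd, s ∈ S →
      (∀ g : Wd, w g ≠ 0 → (e g : G) = s * g) ∧ ∑ g, |w g - (w ∘ e.symm) g| ≤ 2 * (δ / 4) := by
    intro s
    by_cases hs : s ∈ S
    · obtain ⟨e, he⟩ := exists_folner_perm s hK (hsK s hs) (hK0 s hs) hne
      exact ⟨e, fun _ => he⟩
    · exact ⟨1, fun h => absurd h hs⟩
  choose e he using hperm
  obtain ⟨f, N, a, ha, ha1, htr⟩ := exists_row_transfer Wd.card (half_pos hδ)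
  have hcard : Fintype.card Wd ≤ Wd.card := (Fintype.card_coe _).le
  have hv0 : ∀ s g, 0 ≤ (w ∘ (e s).symm) g := fun s g => hw0 _
  have hv1 : ∀ s, ∑ g, (w ∘ (e s).symm) g = 1 := fun s =>
    (Equiv.sum_comp (e s).symm w).trans hwsum
  choose m τ hτ htr' using fun s => htr Wd hcard w (w ∘ (e s).symm) hw0 hwsum (hv0 s) (hv1 s)
  obtain ⟨m₀, τ₀, hτ₀, htr₀⟩ := htr Wd hcard w w hw0 hwsum hw0 hwsum
  obtain ⟨L, hL, hlip⟩ := exists_lip f N a Wd.card hB
  have hne' : (insert 1 S).Nonempty := insert_nonempty _ _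
  refine ⟨{
    Wd := Wd
    one_le := (hne.mono hK).card_pos
    w := w
    w_nonneg := hw0
    w_sum := hwsum
    e := e
    e_apply := fun s hs => (he s hs).1
    f := f
    N := N
    a := a
    a_nonneg := ha
    a_sum := ha1
    m₀ := m₀
    m := m
    τ := min τ₀ ((insert 1 S).inf' hne' τ)
    τ_pos := lt_min hτ₀ ((Finset.lt_inf'_iff hne').2 fun s _ => hτ s)
    value := fun F _ z hz => ?_
    diff := fun s hs F _ z hz => ?_
    L := L
    L_nonneg := hL
    lip := fun F _ D η hη v hv z z' => hlip F Wd hcard D η hη v hv z z' }⟩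
  · exact (htr₀ F z ⟨hz.norm, hz.symm,
      fun g h k l => (hz.comm g h k l).trans (min_le_left _ _), hz.pos⟩).1.trans (by linarith)
  · refine (htr' s F z ⟨hz.norm, hz.symm, fun g h k l => (hz.comm g h k l).trans
      ((min_le_right _ _).trans (Finset.inf'_le _ (mem_insert_of_mem hs))), hz.pos⟩).2.trans ?_
    linarith [(he s hs).2]

end

end Vale.Agent.P095.All.Row
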