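import Vale.Agent.P095.All.Row.Bound
import Vale.Agent.P095.All.Row.Params

/-!
# P095 row elements for amenable groups: the element of a parameter set
-/

namespace Vale.Agent.P095.All.Row

open Finset Vale.Agent.P101.KR Vale.Agent.P095.Amen.Row Vale.Agent.P095.All.RowMat

noncomputable section

variable {F : Type} [CStarAlgebra F]

theorem real_smul_mem (A : StarSubalgebra ℂ F) (c : ℝ) {z : F} (h : z ∈ A) : c • z ∈ A := by
  rw [← Complex.coe_smul]; exact SMulMemClass.smul_mem _ h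

theorem map_smul_real (σ : F →⋆ₐ[ℂ] F) (c : ℝ) (z : F) : σ (c • z) = c • σ z := by
  rw [← Complex.coe_smul, map_smul, Complex.coe_smul]

theorem mean_mem {n : ℕ} (A : StarSubalgebra ℂ F) {f : Fin n → F} (h : ∀ i, f i ∈ A) :
    mean f ∈ A :=
  real_smul_mem A _ (sum_mem fun i _ => h i)

theorem map_mean {n : ℕ} (σ : F →⋆ₐ[ℂ] F) {f f' : Fin n → F} (h : ∀ i, σ (f i) = f' i) :
    σ (mean f) = mean f' := by
  rw [mean, mean, map_smul_real, map_sum]
  exact congrArg _ (sum_congr rfl fun i _ => h i)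

theorem prodS_mem' {n : ℕ} (A : StarSubalgebra ℂ F) {f : Fin n → F} (hf : Comm f)
    (h : ∀ i, f i ∈ A) (S : Finset (Fin n)) : prodS f hf S ∈ A := by
  induction S using Finset.induction_on with
  | empty => rw [prodS_empty]; exact one_mem A
  | insert i S hi ih => rw [prodS_insert hi]; exact mul_mem (h i) ih

variable {G : Type} [Group G] [DecidableEq G] {n : ℕ} (M : Marks F G n)

/-- The element of given amplitudes, its coefficients from the means of the marks `M₀`. -/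
def rowAt (M₀ : Marks F G n) {Sg : Finset G} {δ B : ℝ} (P : Params Sg δ B) (amp : ℕ → ℝ)
    (v : P.Wd → ℝ) : F :=
  M.elem P.N amp amp P.Wd (coef P.f v (kerMat P.N P.a (M₀.zA P.Wd)))

variable (M₀ : Marks F G n)

theorem rowAt_mem {Sg : Finset G} {δ B : ℝ} (P : Params Sg δ B) (amp : ℕ → ℝ) (v : P.Wd → ℝ)
    (A : StarSubalgebra ℂ F) (ha : ∀ g i, M.va g i ∈ A) (hb : ∀ g i, M.vb g i ∈ A)
    (ha₀ : ∀ g i, M₀.va g i ∈ A)
    (hs : ∀ i, M.s i ∈ A) (hU : ∀ i, M.U i ∈ A) : rowAt M M₀ P amp v ∈ A := by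
  have hz : ∀ g h, M₀.zA P.Wd g h ∈ A := fun g h =>
    mean_mem A fun i => mul_mem (star_mem (ha₀ g i)) (ha₀ h i)
  refine sum_mem fun g _ => sum_mem fun h _ => mul_mem ?_
    (mul_mem (coef_mem A P.f v (kerMat_mem A P.N P.a hz) g h) (prodS_mem' A _ hs _))
  refine sum_mem fun x _ => real_smul_mem A _ (mul_mem ?_ (mul_mem (prodS_mem' A _ (ha g) _)
    (prodS_mem' A _ (hb h) _)))
  unfold Marks.head; split_ifs
  · exact hU _
  · exact zero_mem A

theorem map_rowAt {Sg : Finset G} {δ B : ℝ} (P : Params Sg δ B) (amp : ℕ → ℝ) {s : G} (hs : s ∈ Sg)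
    (σ : F →⋆ₐ[ℂ] F) (ha : ∀ g i, σ (M.va g i) = M.va (s * g) i)
    (hb : ∀ g i, σ (M.vb g i) = M.vb (s * g) i) (hU : ∀ i, σ (M.U i) = M.U i)
    (ha₀ : ∀ g i, σ (M₀.va g i) = M₀.va (s * g) i) (hsrc : ∀ i, σ (M.s i) = M.s i) :
    σ (rowAt M M₀ P amp P.w) = rowAt M M₀ P amp (P.w ∘ (P.e s).symm) := by
  refine map_elem M σ (s * ·) ha hb hU hsrc P.N amp amp P.f P.w (P.e s) (P.e_apply s hs) _
    fun g h hg hh => ?_
  rw [kerMat_eq, kerMat_eq, kF, kF, map_sum]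
  refine sum_congr rfl fun r _ => ?_
  rw [map_smul_real, map_pow]
  congr 2
  refine map_mean σ fun i => ?_
  show σ (star (M₀.va g i) * M₀.va h i) = star (M₀.va (P.e s g : G) i) * M₀.va (P.e s h : G) i
  rw [map_mul, map_star, ha₀, ha₀, P.e_apply s hs g hg, P.e_apply s hs h hh]

theorem rowAt_sub {Sg : Finset G} {δ B : ℝ} (P : Params Sg δ B) (amp : ℕ → ℝ) (v v' : P.Wd → ℝ) :
    rowAt M M₀ P amp v - rowAt M M₀ P amp v' = M.elem P.N amp amp P.Wd
      (coef P.f v (kerMat P.N P.a (M₀.zA P.Wd)) - coef P.f v' (kerMat P.N P.a (M₀.zA P.Wd))) := by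
  unfold rowAt Marks.elem
  rw [← sum_sub_distrib]
  refine sum_congr rfl fun g _ => ?_
  rw [← sum_sub_distrib]
  exact sum_congr rfl fun h _ => by rw [← mul_sub, ← sub_mul]; rfl

theorem norm_coef_zA_le {Sg : Finset G} {δ B : ℝ} (P : Params Sg δ B) (hB : 1 ≤ B)
    (hva : ∀ g i, ‖M.va g i‖ ≤ 1) {v : P.Wd → ℝ} (hv : ∀ g, v g ≤ 1) (g h : P.Wd) :
    ‖coef P.f v (kerMat P.N P.a (M.zA P.Wd)) g h‖ ≤ P.L := by
  refine (P.lip F (0 : F) 0 le_rfl v hv _ (M.zA P.Wd) (fun g h => ⟨?_, ?_, by simp⟩) g h).2.norm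
  all_goals exact ((norm_mean_le fun i => M.norm_za_le hva g h i).trans hB)

end

end Vale.Agent.P095.All.Row
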