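import Vale.Agent.P095.All.Row.Pairs

/-!
# P095 row elements for amenable groups: the element and its square

Two orthogonal marks per position; the terms of different pairs of sets are orthogonal exactly, and
the coefficients may be any elements commuting with the units.
-/

namespace Vale.Agent.P095.All.Row

open Finset Vale.Agent.P095.Amen.Row

noncomputable section

/-- Positions with two marks, sources, units and heads. -/
structure Marks (F ι : Type) [CStarAlgebra F] (n : ℕ) where
  A : Fin n → StarSubalgebra ℂ F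
  comm : ∀ i j, i ≠ j → ∀ x ∈ A i, ∀ y ∈ A j, Commute x y
  va : ι → Fin n → F
  vb : ι → Fin n → F
  s : Fin n → F
  s' : Fin n → F
  U : Fin n → F
  va_mem : ∀ g i, va g i ∈ A i
  vb_mem : ∀ g i, vb g i ∈ A i
  s_mem : ∀ i, s i ∈ A i
  s'_mem : ∀ i, s' i ∈ A i
  star_s : ∀ i, star (s i) = s i
  star_s' : ∀ i, star (s' i) = s' i
  comm_ss' : ∀ i, Commute (s i) (s' i)
  s'_s : ∀ i, s' i * s i = s i
  s'_va : ∀ g i, s' i * va g i = 0
  va_s' : ∀ g i, va g i * s' i = va g i
  s'_vb : ∀ g i, s' i * vb g i = 0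
  vb_s' : ∀ g i, vb g i * s' i = vb g i
  va_vb : ∀ g h i, star (va g i) * vb h i = 0
  U_s' : ∀ i j, Commute (U i) (s' j)
  U_va : ∀ g i, star (U i) * (U i * va g i) = va g i
  U_vb : ∀ g i, star (U i) * (U i * vb g i) = vb g i

variable {F ι : Type} [CStarAlgebra F] {n : ℕ}

namespace Marks

variable (M : Marks F ι n)

theorem commF {f f' : Fin n → F} (hf : ∀ i, f i ∈ M.A i) (hf' : ∀ i, f' i ∈ M.A i) {i j : Fin n}
    (h : i ≠ j) : Commute (f i) (f' j) :=
  M.comm i j h _ (hf i) _ (hf' j)

theorem comm_va (g : ι) : Comm (M.va g) := fun _ _ h => M.commF (M.va_mem g) (M.va_mem g) h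

theorem comm_vb (g : ι) : Comm (M.vb g) := fun _ _ h => M.commF (M.vb_mem g) (M.vb_mem g) h

theorem comm_s : Comm M.s := fun _ _ h => M.commF M.s_mem M.s_mem h

theorem comm_s' : Comm M.s' := fun _ _ h => M.commF M.s'_mem M.s'_mem h

/-- The inner product of two first marks. -/
def za (g g' : ι) (i : Fin n) : F := star (M.va g i) * M.va g' i

/-- The inner product of two second marks. -/
def zb (g g' : ι) (i : Fin n) : F := star (M.vb g i) * M.vb g' i

theorem za_mem (g g' : ι) (i : Fin n) : M.za g g' i ∈ M.A i :=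
  mul_mem (star_mem (M.va_mem g i)) (M.va_mem g' i)

theorem zb_mem (g g' : ι) (i : Fin n) : M.zb g g' i ∈ M.A i :=
  mul_mem (star_mem (M.vb_mem g i)) (M.vb_mem g' i)

theorem comm_za (g g' : ι) : Comm (M.za g g') := fun _ _ h => M.commF (M.za_mem g g') (M.za_mem g g') h

theorem comm_zb (g g' : ι) : Comm (M.zb g g') := fun _ _ h => M.commF (M.zb_mem g g') (M.zb_mem g g') h

/-- The product of the sources. -/
def p : F := prodS M.s M.comm_s univ

/-- The product of the units. -/
def p' : F := prodS M.s' M.comm_s' univ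

/-- The products of the first marks. -/
def pA (g : ι) (S : Finset (Fin n)) : F := prodS (M.va g) (M.comm_va g) S

/-- The products of the second marks. -/
def pB (g : ι) (T : Finset (Fin n)) : F := prodS (M.vb g) (M.comm_vb g) T

/-- The mark of a set. -/
def head (S : Finset (Fin n)) : F := if h : S.Nonempty then M.U (S.min' h) else 0

/-- The products of the two marks. -/
def body (g h : ι) (S T : Finset (Fin n)) : F := M.pA g S * M.pB h T

/-- One summand. -/
def term (g h : ι) (S T : Finset (Fin n)) : F := M.head (S ∪ T) * M.body g h S T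

theorem star_p : star M.p = M.p := by
  rw [p, prodS_star (fun i j h => by simpa [M.star_s] using M.comm_s h)]
  exact prodS_congr fun i _ => M.star_s i

theorem star_p' : star M.p' = M.p' := by
  rw [p', prodS_star (fun i j h => by simpa [M.star_s'] using M.comm_s' h)]
  exact prodS_congr fun i _ => M.star_s' i

theorem commute_pA (g : ι) {x : F} {i : Fin n} (hx : x ∈ M.A i) {S : Finset (Fin n)} (hi : i ∉ S) :
    Commute x (M.pA g S) :=
  commute_prodS fun j hj => M.comm i j (ne_of_mem_of_not_mem hj hi).symm _ hx _ (M.va_mem g j)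

theorem commute_pB (g : ι) {x : F} {i : Fin n} (hx : x ∈ M.A i) {T : Finset (Fin n)} (hi : i ∉ T) :
    Commute x (M.pB g T) :=
  commute_prodS fun j hj => M.comm i j (ne_of_mem_of_not_mem hj hi).symm _ hx _ (M.vb_mem g j)

theorem s'_p (i : Fin n) : M.s' i * M.p = M.p := by
  rw [p, ← prodS_erase (hf := M.comm_s) (mem_univ i), ← mul_assoc, M.s'_s]

theorem p_p' : M.p * M.p' = M.p := by
  rw [p, p', ← prodS_mul (fun i j h => M.commF M.s'_mem M.s_mem h)
    (fun i j h => M.comm i j h _ (mul_mem (M.s_mem i) (M.s'_mem i)) _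
      (mul_mem (M.s_mem j) (M.s'_mem j)))]
  exact prodS_congr fun i _ => by rw [(M.comm_ss' i).eq, M.s'_s]

theorem head_s' (S : Finset (Fin n)) (i : Fin n) : Commute (M.head S) (M.s' i) := by
  unfold head; split_ifs
  · exact M.U_s' _ _
  · exact Commute.zero_left _

theorem star_head_s' (S : Finset (Fin n)) (i : Fin n) : Commute (star (M.head S)) (M.s' i) := by
  have h := (M.head_s' S i).star_star
  rwa [M.star_s'] at h

/-- The factor of a position brought to the front. -/
theorem body_front (g h : ι) {S T : Finset (Fin n)} (hd : Disjoint S T) {i : Fin n}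
    (hi : i ∈ S ∪ T) : ∃ (v z : F), (v = M.va g i ∨ v = M.vb h i) ∧ M.body g h S T = v * z := by
  rcases mem_union.1 hi with hi | hi
  · exact ⟨_, _, Or.inl rfl, by rw [body, pA, ← prodS_erase (hf := M.comm_va g) hi, mul_assoc]⟩
  · refine ⟨_, M.pA g S * prodS (M.vb h) (M.comm_vb h) (T.erase i), Or.inr rfl, ?_⟩
    rw [body, pB, ← prodS_erase (hf := M.comm_vb h) hi, ← mul_assoc,
      ← (M.commute_pA g (M.vb_mem h i) (disjoint_right.1 hd hi)).eq, mul_assoc]

theorem s'_body (g h : ι) {S T : Finset (Fin n)} (hd : Disjoint S T) {i : Fin n} (hi : i ∈ S ∪ T) :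
    M.s' i * M.body g h S T = 0 := by
  obtain ⟨v, z, hv, e⟩ := M.body_front g h hd hi
  rw [e, ← mul_assoc]
  rcases hv with rfl | rfl <;> simp [M.s'_va, M.s'_vb]

theorem head_body (g h : ι) {S T : Finset (Fin n)} (hd : Disjoint S T) (hne : (S ∪ T).Nonempty) :
    star (M.head (S ∪ T)) * (M.head (S ∪ T) * M.body g h S T) = M.body g h S T := by
  obtain ⟨v, z, hv, e⟩ := M.body_front g h hd ((S ∪ T).min'_mem hne)
  rw [e, head, dif_pos hne]
  generalize (S ∪ T).min' hne = i at hv ⊢
  calc star (M.U i) * (M.U i * (v * z)) = star (M.U i) * (M.U i * v) * z := by simp only [mul_assoc]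
    _ = v * z := by rcases hv with rfl | rfl <;> simp [M.U_va, M.U_vb]

theorem fix_term (g h : ι) {S T : Finset (Fin n)} (hd : Disjoint S T) (hne : (S ∪ T).Nonempty)
    {P : F} (hP : ∀ g i, P * (M.U i * M.va g i) = M.U i * M.va g i ∧
      P * (M.U i * M.vb g i) = M.U i * M.vb g i) :
    P * M.term g h S T = M.term g h S T := by
  obtain ⟨v, z, hv, e⟩ := M.body_front g h hd ((S ∪ T).min'_mem hne)
  rw [term, e, head, dif_pos hne]
  generalize (S ∪ T).min' hne = i at hv ⊢
  calc P * (M.U i * (v * z)) = P * (M.U i * v) * z := by simp only [mul_assoc]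
    _ = M.U i * v * z := by rcases hv with rfl | rfl <;> simp [(hP _ _).1, (hP _ _).2]
    _ = _ := mul_assoc _ _ _

/-- Terms with different sets of positions, with coefficients to the right. -/
theorem star_term_mul_zero_of {g h g' h' : ι} {S T S' T' : Finset (Fin n)} (hd : Disjoint S T)
    {i : Fin n} (hi : i ∈ S ∪ T) (hi' : i ∉ S' ∪ T') {d : F} (hc : Commute d (M.s' i)) :
    star (M.term g h S T) * (M.term g' h' S' T' * (d * M.p)) = 0 := by
  have h0 : star (M.body g h S T) * M.s' i = 0 := by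
    have e := congrArg star (M.s'_body g h hd hi)
    rwa [star_mul, M.star_s', star_zero] at e
  rw [notMem_union] at hi'
  have hcm : Commute (M.term g' h' S' T') (M.s' i) :=
    (M.head_s' _ i).mul_left (((M.commute_pA g' (M.s'_mem i) hi'.1).symm).mul_left
      ((M.commute_pB h' (M.s'_mem i) hi'.2).symm))
  have h1 : M.term g' h' S' T' * (d * M.p) = M.s' i * (M.term g' h' S' T' * (d * M.p)) := by
    rw [← mul_assoc (M.s' i), ← hcm.eq, mul_assoc, ← mul_assoc (M.s' i) d, ← hc.eq, mul_assoc,
      M.s'_p]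
  rw [h1, term, star_mul]
  calc star (M.body g h S T) * star (M.head (S ∪ T)) * (M.s' i * (M.term g' h' S' T' * (d * M.p)))
      = star (M.body g h S T) * (star (M.head (S ∪ T)) * M.s' i) *
          (M.term g' h' S' T' * (d * M.p)) := by simp only [mul_assoc]
    _ = star (M.body g h S T) * M.s' i * star (M.head (S ∪ T)) *
          (M.term g' h' S' T' * (d * M.p)) := by
          rw [(M.star_head_s' _ i).eq, mul_assoc _ (M.s' i) (star _)]
    _ = 0 := by rw [h0]; simp

/-- Terms with the same positions, split differently. -/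
theorem star_body_mul_zero {g h g' h' : ι} {S T S' T' : Finset (Fin n)} (_hd : Disjoint S T)
    (hd' : Disjoint S' T') {i : Fin n} (hi : i ∈ S) (hi' : i ∈ T') :
    star (M.body g h S T) * M.body g' h' S' T' = 0 := by
  have e1 : M.body g h S T
      = M.va g i * (prodS (M.va g) (M.comm_va g) (S.erase i) * M.pB h T) := by
    rw [body, pA, ← prodS_erase (hf := M.comm_va g) hi, mul_assoc]
  have e2 : M.body g' h' S' T'
      = M.vb h' i * (M.pA g' S' * prodS (M.vb h') (M.comm_vb h') (T'.erase i)) := by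
    rw [body, pB, ← prodS_erase (hf := M.comm_vb h') hi', ← mul_assoc,
      ← (M.commute_pA g' (M.vb_mem h' i) (disjoint_right.1 hd' hi')).eq, mul_assoc]
  rw [e1, e2, star_mul, mul_assoc, ← mul_assoc (star (M.va g i)), M.va_vb]
  simp

theorem star_term_mul_self {g h g' h' : ι} {S T : Finset (Fin n)} (hd : Disjoint S T)
    (hne : (S ∪ T).Nonempty) :
    star (M.term g h S T) * M.term g' h' S T
      = prodS (M.za g g') (M.comm_za g g') S * prodS (M.zb h h') (M.comm_zb h h') T := by
  rw [term, term, star_mul, mul_assoc, M.head_body g' h' hd hne, body, body, star_mul,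
    pA, pA, pB, pB]
  have hA : Comm fun i => star (M.va g i) := fun _ _ e => (M.comm_va g e).star_star
  have hB : Comm fun i => star (M.vb h i) := fun _ _ e => (M.comm_vb h e).star_star
  rw [prodS_star hA, prodS_star hB]
  have hx : ∀ {f f' : Fin n → F} (hf : Comm f) (hf' : Comm f'), (∀ i, f i ∈ M.A i) →
      (∀ i, f' i ∈ M.A i) → ∀ {S T : Finset (Fin n)}, Disjoint S T →
      Commute (prodS f hf S) (prodS f' hf' T) := fun hf hf' hm hm' S T hd =>
    commute_prodS fun j hj => (commute_prodS fun i hi =>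
      M.comm j i (fun e => disjoint_left.1 hd hi (e ▸ hj)) _ (hm' j) _ (hm i)).symm
  have m1 : ∀ i, star (M.va g i) ∈ M.A i := fun i => star_mem (M.va_mem g i)
  have m2 : ∀ i, star (M.vb h i) ∈ M.A i := fun i => star_mem (M.vb_mem h i)
  have ea : prodS (fun i => star (M.va g i)) hA S * prodS (M.va g') (M.comm_va g') S
      = prodS (M.za g g') (M.comm_za g g') S :=
    (prodS_mul (fun i j e => M.commF (M.va_mem g') m1 e) (M.comm_za g g') S).symm
  have eb : prodS (fun i => star (M.vb h i)) hB T * prodS (M.vb h') (M.comm_vb h') T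
      = prodS (M.zb h h') (M.comm_zb h h') T :=
    (prodS_mul (fun i j e => M.commF (M.vb_mem h') m2 e) (M.comm_zb h h') T).symm
  rw [← ea, ← eb, ← mul_assoc, mul_assoc (prodS (fun i => star (M.vb h i)) hB T)]
  rw [(hx hB (M.comm_za g g') m2 (M.za_mem g g') hd.symm |> fun hc => (show
    Commute (prodS (fun i => star (M.vb h i)) hB T)
      (prodS (fun i => star (M.va g i)) hA S * prodS (M.va g') (M.comm_va g') S) by
        rw [ea]; exact hc)).eq]
  simp only [mul_assoc]

/-- The pairs of sets. -/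
def idx (n N : ℕ) : Finset (Σ _ : (Σ _ : ℕ × ℕ, Finset (Fin n)), Finset (Fin n)) :=
  ((Finset.range N ×ˢ Finset.range N).sigma fun rr => powersetCard (rr.1 + 1) univ).sigma
    fun x => powersetCard (x.1.2 + 1) (univ \ x.2)

theorem mem_idx {N : ℕ} {x : Σ _ : (Σ _ : ℕ × ℕ, Finset (Fin n)), Finset (Fin n)}
    (hx : x ∈ idx n N) :
    x.1.2.card = x.1.1.1 + 1 ∧ x.2.card = x.1.1.2 + 1 ∧ Disjoint x.1.2 x.2 ∧
      (x.1.2 ∪ x.2).Nonempty := by
  simp only [idx, mem_sigma, mem_powersetCard] at hx
  obtain ⟨⟨-, -, h1⟩, hsub, h2⟩ := hx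
  refine ⟨h1, h2, disjoint_right.2 fun i hi => (mem_sdiff.1 (hsub hi)).2, ?_⟩
  exact (card_pos.1 (by omega)).mono subset_union_left

/-- The amplitude of one pair. -/
def ω (n : ℕ) (amp amp' : ℕ → ℝ) (x : Σ _ : (Σ _ : ℕ × ℕ, Finset (Fin n)), Finset (Fin n)) : ℝ :=
  amp x.1.1.1 * amp' x.1.1.2 * Real.sqrt
    ((n.choose (x.1.1.1 + 1) : ℝ) * ((n - (x.1.1.1 + 1)).choose (x.1.1.2 + 1) : ℝ))⁻¹

variable (N : ℕ) (amp amp' : ℕ → ℝ)

/-- The vector of two points. -/
def vec (g h : ι) : F := ∑ x ∈ idx n N, ω n amp amp' x • M.term g h x.1.2 x.2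

/-- The kernel of two pairs of points, before the means. -/
def ker (g g' h h' : ι) : F :=
  ∑ rr ∈ Finset.range N ×ˢ Finset.range N, (amp rr.1 ^ 2 * amp' rr.2 ^ 2) •
    meanST (M.za g g') (M.zb h h') (M.comm_za g g') (M.comm_zb h h') (rr.1 + 1) (rr.2 + 1)

theorem star_mul_vec {g h g' h' : ι} {c d : F} (hc : ∀ i, Commute c (M.s' i))
    (hd : ∀ i, Commute d (M.s' i)) :
    star (M.vec N amp amp' g h * (c * M.p)) * (M.vec N amp amp' g' h' * (d * M.p))
      = M.p * (star c * M.ker N amp amp' g g' h h' * d) * M.p := by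
  have hzero : ∀ x ∈ idx n N, ∀ y ∈ idx n N, y ≠ x →
      star (M.term g h x.1.2 x.2 * (c * M.p)) * (M.term g' h' y.1.2 y.2 * (d * M.p)) = 0 := by
    intro x hx y hy hne
    obtain ⟨cx, cx', dx, -⟩ := mem_idx hx
    obtain ⟨cy, cy', dy, ney⟩ := mem_idx hy
    by_cases h1 : x.1.2 ∪ x.2 ⊆ y.1.2 ∪ y.2
    · by_cases h2 : y.1.2 ∪ y.2 ⊆ x.1.2 ∪ x.2
      · have hU := Finset.Subset.antisymm h1 h2
        have hS : x.1.2 ≠ y.1.2 := by
          intro e
          have eT : x.2 = y.2 := by
            rw [← union_sdiff_cancel_left dx, ← union_sdiff_cancel_left dy, hU, e]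
          obtain ⟨⟨⟨r, r'⟩, S⟩, T⟩ := x
          obtain ⟨⟨⟨q, q'⟩, S'⟩, T'⟩ := y
          simp only at e eT cx cx' cy cy'
          subst e eT
          exact hne (by rw [show q = r by omega, show q' = r' by omega])
        have h0 : star (M.body g h x.1.2 x.2) * M.body g' h' y.1.2 y.2 = 0 := by
          by_cases h3 : x.1.2 ⊆ y.1.2
          · obtain ⟨i, hi, hi'⟩ := not_subset.1 fun h4 => hS (Finset.Subset.antisymm h3 h4)
            have hiT : i ∈ x.2 := (mem_union.1 (h2 (mem_union_left _ hi))).resolve_left hi'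
            have e := congrArg star
              (M.star_body_mul_zero (g := g') (h := h') (g' := g) (h' := h) dy dx hi hiT)
            rwa [star_mul, star_star, star_zero] at e
          · obtain ⟨i, hi, hi'⟩ := not_subset.1 h3
            exact M.star_body_mul_zero dx dy hi
              ((mem_union.1 (h1 (mem_union_left _ hi))).resolve_left hi')
        have h5 : star (M.term g h x.1.2 x.2) * M.term g' h' y.1.2 y.2 = 0 := by
          rw [term, term, star_mul, hU, mul_assoc, M.head_body g' h' dy ney, h0]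
        rw [star_mul, mul_assoc, ← mul_assoc (star (M.term g h x.1.2 x.2)), h5]
        simp
      · obtain ⟨i, hi, hi'⟩ := not_subset.1 h2
        have e := M.star_term_mul_zero_of (g := g') (h := h') (g' := g) (h' := h) dy hi hi' (hc i)
        have e2 := congrArg star e
        rw [star_mul, star_star, star_zero] at e2
        rw [← mul_assoc, e2, zero_mul]
    · obtain ⟨i, hi, hi'⟩ := not_subset.1 h1
      rw [star_mul (M.term g h x.1.2 x.2), mul_assoc, M.star_term_mul_zero_of dx hi hi' (hd i),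
        mul_zero]
  rw [ker, vec, vec, sum_mul, sum_mul, star_sum, sum_mul]
  simp only [smul_mul_assoc, star_smul, star_trivial, mul_sum, sum_mul]
  refine Eq.trans (b := ∑ x ∈ idx n N, (ω n amp amp' x * ω n amp amp' x) •
      (M.p * (star c * (prodS (M.za g g') (M.comm_za g g') x.1.2 *
        prodS (M.zb h h') (M.comm_zb h h') x.2) * d) * M.p)) (sum_congr rfl fun x hx => ?_) ?_
  · rw [sum_eq_single x, mul_smul_comm, smul_smul]
    · congr 1
      rw [star_mul, star_mul, M.star_p, ← M.star_term_mul_self (g := g) (g' := g') (h := h) (h' := h')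
        (mem_idx hx).2.2.1 (mem_idx hx).2.2.2]
      simp only [mul_assoc]
    · intro y hy hne
      rw [mul_smul_comm, hzero x hx y hy hne, smul_zero, smul_zero]
    · exact fun h => absurd hx h
  rw [idx, sum_sigma, sum_sigma]
  refine sum_congr rfl fun rr _ => ?_
  simp only [meanST, smul_sum, mul_sum, sum_mul, mul_smul_comm, smul_mul_assoc, smul_smul]
  refine sum_congr rfl fun S _ => sum_congr rfl fun T _ => ?_
  congr 1
  rw [ω, mul_mul_mul_comm, Real.mul_self_sqrt (by positivity)]
  ring

/-- The element of a coefficient matrix. -/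
def elem (Wd : Finset ι) (c : Wd → Wd → F) : F :=
  ∑ g : Wd, ∑ h : Wd, M.vec N amp amp' g h * (c g h * M.p)

/-- The form of two coefficient matrices. -/
def formK (Wd : Finset ι) (c d : Wd → Wd → F) : F :=
  ∑ g : Wd, ∑ h : Wd, ∑ g' : Wd, ∑ h' : Wd,
    star (c g h) * M.ker N amp amp' g g' h h' * d g' h'

theorem star_elem_mul_elem {Wd : Finset ι} {c d : Wd → Wd → F}
    (hc : ∀ g h i, Commute (c g h) (M.s' i)) (hd : ∀ g h i, Commute (d g h) (M.s' i)) :
    star (M.elem N amp amp' Wd c) * M.elem N amp amp' Wd d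
      = M.p * M.formK N amp amp' Wd c d * M.p := by
  rw [elem, elem, formK]
  simp only [star_sum, sum_mul]
  simp only [mul_sum, sum_mul]
  exact sum_congr rfl fun g _ => sum_congr rfl fun h _ => sum_congr rfl fun g' _ =>
    sum_congr rfl fun h' _ =>
      M.star_mul_vec N amp amp' (g := ↑g) (h := ↑h) (g' := ↑g') (h' := ↑h') (hc g h) (hd g' h')

theorem elem_p' (Wd : Finset ι) (c : Wd → Wd → F) :
    M.elem N amp amp' Wd c * M.p' = M.elem N amp amp' Wd c := by
  simp only [elem, sum_mul, mul_assoc, M.p_p']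

theorem p'_elem (Wd : Finset ι) (c : Wd → Wd → F) : M.p' * M.elem N amp amp' Wd c = 0 := by
  simp only [elem, vec, sum_mul, mul_sum, smul_mul_assoc, mul_smul_comm]
  refine sum_eq_zero fun g _ => sum_eq_zero fun h _ => sum_eq_zero fun x hx => ?_
  obtain ⟨-, -, hd, hne⟩ := mem_idx hx
  obtain ⟨i, hi⟩ := hne
  have h0 : M.p' * M.body g h x.1.2 x.2 = 0 := by
    have hci : Commute (M.s' i) (prodS M.s' M.comm_s' (univ.erase i)) :=
      commute_prodS fun j hj => M.commF M.s'_mem M.s'_mem (ne_of_mem_erase hj).symm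
    rw [p', ← prodS_erase (hf := M.comm_s') (mem_univ i), hci.eq, mul_assoc, M.s'_body _ _ hd hi,
      mul_zero]
  have hc : Commute (M.head (x.1.2 ∪ x.2)) M.p' := commute_prodS fun j _ => M.head_s' _ j
  rw [term, ← mul_assoc, ← mul_assoc M.p', ← hc.eq, mul_assoc (M.head _), h0]
  simp

theorem fix_elem (Wd : Finset ι) (c : Wd → Wd → F) {P : F}
    (hP : ∀ g i, P * (M.U i * M.va g i) = M.U i * M.va g i ∧
      P * (M.U i * M.vb g i) = M.U i * M.vb g i) :
    P * M.elem N amp amp' Wd c = M.elem N amp amp' Wd c := by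
  simp only [elem, vec, sum_mul, mul_sum, smul_mul_assoc, mul_smul_comm]
  refine sum_congr rfl fun g _ => sum_congr rfl fun h _ => sum_congr rfl fun x hx => ?_
  obtain ⟨-, -, hd, hne⟩ := mem_idx hx
  rw [← mul_assoc, M.fix_term _ _ hd hne hP]

end Marks

end

end Vale.Agent.P095.All.Row
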