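import Vale.Agent.P095.All.Row.Elem

/-!
# P095 row elements for amenable groups: means over the positions

The means of the inner products almost commute, form positive matrices and are one on the source.
-/

namespace Vale.Agent.P095.All.Row

open Finset Vale.Agent.P095.Amen.Row
open scoped ComplexConjugate

noncomputable section

variable {F : Type} [CStarAlgebra F] {n : ℕ}

/-- Means of families from commuting positions commute up to `2/n`. -/
theorem norm_comm_mean {f g : Fin n → F} (hf : ∀ i, ‖f i‖ ≤ 1) (hg : ∀ i, ‖g i‖ ≤ 1)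
    (hfg : Pairwise fun i j => Commute (f i) (g j)) :
    ‖mean f * mean g - mean g * mean f‖ ≤ 2 / n := by
  rcases Nat.eq_zero_or_pos n with hn | hn
  · subst hn; simp [mean]
  have hn' : (0 : ℝ) < n := by exact_mod_cast hn
  have e : mean f * mean g - mean g * mean f
      = ((n : ℝ)⁻¹ * (n : ℝ)⁻¹) • ∑ i, (f i * g i - g i * f i) := by
    rw [mean, mean, smul_mul_smul_comm, smul_mul_smul_comm, ← smul_sub, sum_mul_sum, sum_mul_sum,
      sum_comm (f := fun i j => g i * f j), ← sum_sub_distrib]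
    congr 1
    refine sum_congr rfl fun i _ => ?_
    rw [← sum_sub_distrib, sum_eq_single i]
    · exact fun j _ hj => sub_eq_zero.2 (hfg (Ne.symm hj)).eq
    · exact fun h => absurd (mem_univ i) h
  rw [e, norm_smul, Real.norm_of_nonneg (by positivity)]
  calc (n : ℝ)⁻¹ * (n : ℝ)⁻¹ * ‖∑ i, (f i * g i - g i * f i)‖
      ≤ (n : ℝ)⁻¹ * (n : ℝ)⁻¹ * (n * 2) := by
        refine mul_le_mul_of_nonneg_left ((norm_sum_le _ _).trans ?_) (by positivity)
        refine (sum_le_sum fun i _ => (norm_sub_le _ _).trans (add_le_add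
          ((norm_mul_le _ _).trans (mul_le_one₀ (hf i) (norm_nonneg _) (hg i)))
          ((norm_mul_le _ _).trans (mul_le_one₀ (hg i) (norm_nonneg _) (hf i))))).trans_eq ?_
        rw [sum_const, card_univ, Fintype.card_fin, nsmul_eq_mul]; norm_num
    _ = 2 / n := by field_simp

theorem commute_mean {f : Fin n → F} {y : F} (h : ∀ i, Commute (f i) y) : Commute (mean f) y :=
  (Commute.sum_left _ _ _ fun i _ => h i).smul_left _

theorem mean_mul_eq {f : Fin n → F} {y : F} (hn : 0 < n) (h : ∀ i, f i * y = y) :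
    mean f * y = y := by
  rw [mean, smul_mul_assoc, sum_mul]
  simp only [h, sum_const, card_univ, Fintype.card_fin]
  rw [← Nat.cast_smul_eq_nsmul ℝ, smul_smul, inv_mul_cancel₀ (by positivity), one_smul]

theorem star_mean (f : Fin n → F) : star (mean f) = mean fun i => star (f i) := by
  simp [mean, star_smul, star_sum]

/-- A sum of squares is a square. -/
theorem sqLe_zero_sum {κ : Type} [Fintype κ] (v : κ → F) {c : ℝ} (hc : 0 ≤ c) :
    ∃ d : F, c • ∑ k, star (v k) * v k = star d * d := by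
  let _ : PartialOrder F := CStarAlgebra.spectralOrder F
  have : StarOrderedRing F := CStarAlgebra.spectralOrderedRing F
  exact CStarAlgebra.nonneg_iff_eq_star_mul_self.1
    (smul_nonneg hc (sum_nonneg fun k _ => star_mul_self_nonneg _))

theorem gram_mean_pos {κ : Type} [Fintype κ] (v : κ → Fin n → F) (c : κ → ℂ) :
    ∃ d : F, ∑ g, ∑ h, (conj (c g) * c h) • mean (fun i => star (v g i) * v h i) = star d * d := by
  obtain ⟨d, hd⟩ := sqLe_zero_sum (fun i : Fin n => ∑ g, c g • v g i)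
    (show (0 : ℝ) ≤ (n : ℝ)⁻¹ by positivity)
  refine ⟨d, ?_⟩
  rw [← hd]
  simp only [mean, smul_comm _ ((n : ℝ)⁻¹), ← smul_sum]
  congr 1
  simp only [star_sum, sum_mul_sum, smul_sum, star_smul, smul_mul_smul_comm, ← Complex.star_def]
  rw [sum_comm (γ := Fin n)]
  exact sum_congr rfl fun g _ => sum_comm

/-- The kernel in the algebra. -/
def kF (N : ℕ) (a : ℕ → ℝ) (z : F) : F := ∑ r ∈ range N, a r • z ^ (r + 1)

theorem kF_mul_kF (N : ℕ) (a a' : ℕ → ℝ) (z z' : F) : kF N a z * kF N a' z'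
    = ∑ rr ∈ range N ×ˢ range N, (a rr.1 * a' rr.2) • (z ^ (rr.1 + 1) * z' ^ (rr.2 + 1)) := by
  rw [kF, kF, sum_mul_sum, sum_product]
  exact sum_congr rfl fun r _ => sum_congr rfl fun r' _ => smul_mul_smul_comm _ _ _ _

namespace Marks

variable {ι : Type} (M : Marks F ι n)

theorem za_s' (g g' : ι) (i j : Fin n) : Commute (M.za g g' i) (M.s' j) := by
  rcases eq_or_ne i j with rfl | h
  · have h1 : M.s' i * star (M.va g i) = star (M.va g i) := by
      have e := congrArg star (M.va_s' g i)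
      rwa [star_mul, M.star_s'] at e
    show _ = _
    rw [za, mul_assoc, M.va_s', ← mul_assoc, h1]
  · exact M.comm i j h _ (M.za_mem g g' i) _ (M.s'_mem j)

theorem zb_s' (g g' : ι) (i j : Fin n) : Commute (M.zb g g' i) (M.s' j) := by
  rcases eq_or_ne i j with rfl | h
  · have h1 : M.s' i * star (M.vb g i) = star (M.vb g i) := by
      have e := congrArg star (M.vb_s' g i)
      rwa [star_mul, M.star_s'] at e
    show _ = _
    rw [zb, mul_assoc, M.vb_s', ← mul_assoc, h1]
  · exact M.comm i j h _ (M.zb_mem g g' i) _ (M.s'_mem j)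

theorem mean_za_p (g : ι) (hn : 0 < n) (h : ∀ i, M.za g g i * M.s i = M.s i) :
    mean (M.za g g) * M.p = M.p := by
  refine mean_mul_eq hn fun i => ?_
  rw [p, ← prodS_erase (hf := M.comm_s) (mem_univ i), ← mul_assoc, h]

theorem norm_za_le (hva : ∀ g i, ‖M.va g i‖ ≤ 1) (g g' : ι) (i : Fin n) : ‖M.za g g' i‖ ≤ 1 :=
  (norm_mul_le _ _).trans (mul_le_one₀ (by rw [norm_star]; exact hva g i) (norm_nonneg _) (hva g' i))

theorem norm_zb_le (hvb : ∀ g i, ‖M.vb g i‖ ≤ 1) (g g' : ι) (i : Fin n) : ‖M.zb g g' i‖ ≤ 1 :=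
  (norm_mul_le _ _).trans (mul_le_one₀ (by rw [norm_star]; exact hvb g i) (norm_nonneg _) (hvb g' i))

theorem norm_ker_sub [Nontrivial F] (hva : ∀ g i, ‖M.va g i‖ ≤ 1) (hvb : ∀ g i, ‖M.vb g i‖ ≤ 1)
    {N : ℕ} (hn : 2 * N ≤ n) (amp amp' : ℕ → ℝ) (g g' h h' : ι) :
    ‖M.ker N amp amp' g g' h h' - kF N (fun r => amp r ^ 2) (mean (M.za g g')) *
        kF N (fun r => amp' r ^ 2) (mean (M.zb h h'))‖
      ≤ (∑ r ∈ range N, amp r ^ 2) * (∑ r ∈ range N, amp' r ^ 2) * (8 * (N : ℝ) ^ 2 / n) := by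
  rw [ker, kF_mul_kF, ← sum_sub_distrib, sum_mul_sum, sum_mul, sum_product]
  refine (norm_sum_le _ _).trans (sum_le_sum fun r hr => ?_)
  rw [sum_mul]
  refine (norm_sum_le _ _).trans (sum_le_sum fun r' hr' => ?_)
  have h1 := mem_range.1 hr
  have h2 := mem_range.1 hr'
  rw [← smul_sub, norm_smul, Real.norm_of_nonneg (by positivity)]
  refine mul_le_mul_of_nonneg_left ?_ (by positivity)
  refine (norm_meanST_sub (M.norm_za_le hva g g') (M.norm_zb_le hvb h h') (by omega) (by omega)).trans ?_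
  rw [show 8 * (N : ℝ) ^ 2 = 2 * (2 * (N : ℝ)) ^ 2 by ring]
  gcongr
  have e1 : ((r + 1 : ℕ) : ℝ) ≤ N := Nat.cast_le.2 h1
  have e2 : ((r' + 1 : ℕ) : ℝ) ≤ N := Nat.cast_le.2 h2
  linarith

end Marks

/-- The form of a kernel of four indices. -/
def formW {κ : Type} [Fintype κ] (k : κ → κ → κ → κ → F) (c d : κ → κ → F) : F :=
  ∑ g, ∑ h, ∑ g', ∑ h', star (c g h) * k g g' h h' * d g' h'

theorem norm_formW_sub {κ : Type} [Fintype κ] (k k' : κ → κ → κ → κ → F) (c d : κ → κ → F)
    {δ L : ℝ} (hL : 0 ≤ L) (hk : ∀ g g' h h', ‖k g g' h h' - k' g g' h h'‖ ≤ δ)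
    (hc : ∀ g h, ‖c g h‖ ≤ L) (hd : ∀ g h, ‖d g h‖ ≤ L) :
    ‖formW k c d - formW k' c d‖ ≤ (Fintype.card κ : ℝ) ^ 4 * (L * δ * L) := by
  simp only [formW, ← sum_sub_distrib, ← sub_mul, ← mul_sub]
  refine (norm_sum_le _ _).trans ((sum_le_sum fun g _ => (norm_sum_le _ _).trans (sum_le_sum fun h _ =>
    (norm_sum_le _ _).trans (sum_le_sum fun g' _ => (norm_sum_le _ _).trans (sum_le_sum fun h' _ =>
      (?_ : _ ≤ L * δ * L))))).trans ?_)
  · have hδ : 0 ≤ δ := (norm_nonneg _).trans (hk g g' h h')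
    refine (norm_mul_le _ _).trans (mul_le_mul ((norm_mul_le _ _).trans ?_) (hd _ _) (norm_nonneg _)
      (mul_nonneg hL hδ))
    rw [norm_star]
    exact mul_le_mul (hc _ _) (hk _ _ _ _) (norm_nonneg _) hL
  · simp only [sum_const, nsmul_eq_mul, card_univ]
    exact le_of_eq (by ring)

theorem Marks.formK_eq {ι : Type} (M : Marks F ι n) (N : ℕ) (amp amp' : ℕ → ℝ) (Wd : Finset ι)
    (c d : Wd → Wd → F) : M.formK N amp amp' Wd c d
      = formW (fun g g' h h' : Wd => M.ker N amp amp' g g' h h') c d := rfl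

variable [PartialOrder F] [StarOrderedRing F]

/-- A selfadjoint sandwich is controlled by the norm inside. -/
theorem conj_between {p X : F} (hp : star p = p) (hX : IsSelfAdjoint (p * X * p)) {δ : ℝ}
    (hδ : ‖X‖ ≤ δ) : p * X * p ≤ δ • (p * p) ∧ -(δ • (p * p)) ≤ p * X * p := by
  set Y : F := (1 / 2 : ℝ) • (X + star X) with hY
  have hYsa : IsSelfAdjoint Y := (IsSelfAdjoint.all (1 / 2 : ℝ)).smul (IsSelfAdjoint.add_star_self X)
  have hYn : ‖Y‖ ≤ δ := by
    rw [hY, norm_smul]
    have := norm_add_le X (star X)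
    rw [norm_star] at this
    norm_num
    linarith
  have e : p * X * p = p * Y * p := by
    have h := hX.star_eq
    rw [star_mul, star_mul, hp, ← mul_assoc] at h
    rw [hY, mul_smul_comm, smul_mul_assoc, mul_add, add_mul, h, ← two_smul ℝ (p * X * p), smul_smul]
    norm_num
  have hconj : ∀ {a b : F}, a ≤ b → p * a * p ≤ p * b * p := fun {a b} h => by
    have := star_left_conjugate_le_conjugate h p
    rwa [hp] at this
  have hup : Y ≤ δ • (1 : F) := by
    rw [← Algebra.algebraMap_eq_smul_one]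
    exact hYsa.le_algebraMap_norm_self.trans (algebraMap_mono F hYn)
  have hlow : -(δ • (1 : F)) ≤ Y := by
    rw [← Algebra.algebraMap_eq_smul_one, neg_le]
    exact hYsa.neg.le_algebraMap_norm_self.trans (algebraMap_mono F (by rwa [norm_neg]))
  rw [e]
  refine ⟨?_, ?_⟩
  · simpa [mul_smul_comm, smul_mul_assoc] using hconj hup
  · simpa [mul_smul_comm, smul_mul_assoc] using hconj hlow

end

end Vale.Agent.P095.All.Row
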