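import Vale.Agent.P095.Amen.Row.Combi

/-!
# P095 row elements for amenable groups: products over two disjoint sets of positions

The mean over the disjoint pairs is close to the product of the powers of the two means.
-/

namespace Vale.Agent.P095.All.Row

open Finset Vale.Agent.P095.Amen.Row

noncomputable section

variable {F : Type} [CStarAlgebra F] [Nontrivial F] {n : ℕ}

/-- The mean over the disjoint pairs of an `r`-set and an `r'`-set. -/
def meanST (f g : Fin n → F) (hf : Comm f) (hg : Comm g) (r r' : ℕ) : F :=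
  ((n.choose r : ℝ) * ((n - r).choose r' : ℝ))⁻¹ •
    ∑ S ∈ powersetCard r univ, ∑ T ∈ powersetCard r' (univ \ S), prodS f hf S * prodS g hg T

theorem choose_meet (n r r' : ℕ) (hr' : 0 < r') (S : Finset (Fin n)) (hS : S.card = r) :
    ((n.choose r' : ℝ) - ((n - r).choose r' : ℝ)) * n ≤ (r : ℝ) * r' * n.choose r' := by
  have hcard : (powersetCard r' (univ \ S)).card = (n - r).choose r' := by
    rw [card_powersetCard, card_sdiff_of_subset (subset_univ S), hS, card_univ, Fintype.card_fin]
  have hbad : (powersetCard r' (univ : Finset (Fin n)) \ powersetCard r' (univ \ S)).card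
      ≤ ∑ i ∈ S, ((powersetCard r' (univ : Finset (Fin n))).filter fun T => i ∈ T).card := by
    refine le_trans (card_le_card ?_) card_biUnion_le
    intro T hT
    simp only [mem_sdiff, mem_powersetCard, mem_biUnion, mem_filter, subset_univ, true_and] at hT ⊢
    obtain ⟨h1, h2⟩ := hT
    by_contra h
    refine h2 ⟨fun i hi => mem_sdiff.2 ⟨mem_univ _, fun hiS => h ⟨i, hiS, h1, hi⟩⟩, h1⟩
  rw [card_sdiff_of_subset (powersetCard_mono sdiff_subset), hcard, card_powersetCard, card_univ,
    Fintype.card_fin] at hbad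
  have hone : ∀ i : Fin n,
      ((powersetCard r' (univ : Finset (Fin n))).filter fun T => i ∈ T).card * n
        = r' * n.choose r' := by
    intro i
    have h := card_bij' (s := (powersetCard r' (univ : Finset (Fin n))).filter fun T => i ∈ T)
      (t := powersetCard (r' - 1) ((univ : Finset (Fin n)).erase i)) (fun T _ => T.erase i)
      (fun T _ => insert i T) ?_ ?_ ?_ ?_
    · rw [h, card_powersetCard, card_erase_of_mem (mem_univ i), card_univ, Fintype.card_fin]
      obtain ⟨k, rfl⟩ : ∃ k, r' = k + 1 := ⟨r' - 1, by omega⟩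
      obtain ⟨m, rfl⟩ : ∃ m, n = m + 1 := ⟨n - 1, by have := i.2; omega⟩
      rw [Nat.add_sub_cancel, Nat.add_sub_cancel, mul_comm, Nat.add_one_mul_choose_eq, mul_comm]
    · intro T hT
      simp only [mem_filter, mem_powersetCard] at hT
      simp [mem_powersetCard, erase_subset_erase, subset_univ, card_erase_of_mem hT.2, hT.1.2]
    · intro T hT
      simp only [mem_powersetCard] at hT
      have hi : i ∉ T := fun h => (mem_erase.1 (hT.1 h)).1 rfl
      simp only [mem_filter, mem_powersetCard, mem_insert_self, and_true, subset_univ, true_and,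
        card_insert_of_notMem hi]
      omega
    · intro T hT
      simp only [mem_filter] at hT
      exact insert_erase hT.2
    · intro T hT
      simp only [mem_powersetCard] at hT
      exact erase_insert fun h => (mem_erase.1 (hT.1 h)).1 rfl
  have hle : (n - r).choose r' ≤ n.choose r' := Nat.choose_le_choose r' (Nat.sub_le n r)
  have h2 : (n.choose r' - (n - r).choose r') * n ≤ r * r' * n.choose r' := by
    refine (Nat.mul_le_mul_right n hbad).trans ?_
    rw [sum_mul, sum_congr rfl fun i _ => hone i, sum_const, hS, smul_eq_mul, mul_assoc]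
  have h3 : (((n.choose r' - (n - r).choose r') * n : ℕ) : ℝ) ≤ ((r * r' * n.choose r' : ℕ) : ℝ) :=
    Nat.cast_le.2 h2
  push_cast [Nat.cast_sub hle] at h3
  exact h3

variable {f g : Fin n → F} {hf : Comm f} {hg : Comm g}

theorem norm_inner_sub (hgn : ∀ i, ‖g i‖ ≤ 1) {r r' : ℕ} (hr' : 0 < r') (hn : r + r' ≤ n)
    {S : Finset (Fin n)} (hS : S.card = r) :
    ‖((n - r).choose r' : ℝ)⁻¹ • ∑ T ∈ powersetCard r' (univ \ S), prodS g hg T
      - meanS g hg r'‖ ≤ 2 * (r : ℝ) * r' / n := by
  have hn0 : (0 : ℝ) < n := by exact_mod_cast (show 0 < n by omega)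
  set C : ℝ := ((n.choose r' : ℕ) : ℝ) with hCdef
  set C' : ℝ := (((n - r).choose r' : ℕ) : ℝ) with hC'def
  have hC' : 0 < C' := Nat.cast_pos.2 (Nat.choose_pos (show r' ≤ n - r by omega))
  have hCC : C' ≤ C := Nat.cast_le.2 (Nat.choose_le_choose r' (Nat.sub_le n r))
  have hC : 0 < C := hC'.trans_le hCC
  have hmeet : (C - C') * n ≤ (r : ℝ) * r' * C := choose_meet n r r' hr' S hS
  set A := ∑ T ∈ powersetCard r' (univ \ S), prodS g hg T with hA
  set B := ∑ T ∈ powersetCard r' univ \ powersetCard r' (univ \ S), prodS g hg T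
  have hsplit : ∑ T ∈ powersetCard r' univ, prodS g hg T = A + B := by
    rw [hA, add_comm, sum_sdiff (powersetCard_mono sdiff_subset)]
  have hAn : ‖A‖ ≤ C' := by
    refine (norm_sum_le _ _).trans ((sum_le_sum fun T _ => norm_prodS_le hgn T).trans_eq ?_)
    rw [sum_const, card_powersetCard, card_sdiff_of_subset (subset_univ S), hS, card_univ,
      Fintype.card_fin, nsmul_one]
  have hBn : ‖B‖ ≤ C - C' := by
    refine (norm_sum_le _ _).trans ((sum_le_sum fun T _ => norm_prodS_le hgn T).trans_eq ?_)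
    rw [sum_const, nsmul_one, card_sdiff_of_subset (powersetCard_mono sdiff_subset),
      card_powersetCard, card_powersetCard, card_sdiff_of_subset (subset_univ S), hS, card_univ,
      Fintype.card_fin, Nat.cast_sub (Nat.choose_le_choose r' (Nat.sub_le n r))]
  rw [meanS, hsplit, smul_add, ← sub_sub, ← sub_smul]
  refine (norm_sub_le _ _).trans ?_
  have hpos : 0 ≤ C'⁻¹ - C⁻¹ := sub_nonneg.2 (inv_anti₀ hC' hCC)
  rw [norm_smul, norm_smul, Real.norm_of_nonneg hpos, Real.norm_of_nonneg (by positivity)]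
  refine (add_le_add (mul_le_mul_of_nonneg_left hAn hpos)
    (mul_le_mul_of_nonneg_left hBn (by positivity))).trans ?_
  rw [show (C'⁻¹ - C⁻¹) * C' + C⁻¹ * (C - C') = 2 * ((C - C') / C) by field_simp; ring,
    mul_assoc, mul_div_assoc]
  refine mul_le_mul_of_nonneg_left ?_ zero_le_two
  rw [div_le_div_iff₀ hC hn0]
  linarith

omit [Nontrivial F] in
theorem meanST_eq (r r' : ℕ) : meanST f g hf hg r r' = (n.choose r : ℝ)⁻¹ •
    ∑ S ∈ powersetCard r univ, prodS f hf S *
      (((n - r).choose r' : ℝ)⁻¹ • ∑ T ∈ powersetCard r' (univ \ S), prodS g hg T) := by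
  simp only [meanST, mul_inv, mul_smul, smul_sum, mul_sum, mul_smul_comm]

theorem norm_meanST_sub (hfn : ∀ i, ‖f i‖ ≤ 1) (hgn : ∀ i, ‖g i‖ ≤ 1) {r r' : ℕ} (hr' : 0 < r')
    (hn : r + r' ≤ n) :
    ‖meanST f g hf hg r r' - mean f ^ r * mean g ^ r'‖ ≤ 2 * ((r : ℝ) + r') ^ 2 / n := by
  have hc : (0 : ℝ) < (n.choose r : ℕ) := by exact_mod_cast Nat.choose_pos (show r ≤ n by omega)
  have h1 : ‖meanST f g hf hg r r' - meanS f hf r * meanS g hg r'‖ ≤ 2 * (r : ℝ) * r' / n := by
    rw [meanST_eq, meanS.eq_def f, smul_mul_assoc, sum_mul, ← smul_sub, ← sum_sub_distrib,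
      norm_smul, Real.norm_of_nonneg (by positivity), inv_mul_le_iff₀ hc]
    refine (norm_sum_le _ _).trans ((sum_le_sum fun S hS => (?_ : _ ≤ 2 * (r : ℝ) * r' / n)).trans ?_)
    · rw [← mul_sub]
      exact (norm_mul_le _ _).trans ((mul_le_of_le_one_left (norm_nonneg _) (norm_prodS_le hfn S)).trans
        (norm_inner_sub hgn hr' hn (mem_powersetCard.1 hS).2))
    · rw [sum_const, card_powersetCard, card_univ, Fintype.card_fin, nsmul_eq_mul]
  have hgp : ‖meanS g hg r'‖ ≤ 1 := norm_meanS_le hgn (by omega)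
  have hfp : ∀ k : ℕ, ‖mean f ^ k‖ ≤ 1 := fun k => by
    induction k with
    | zero => simp
    | succ k ih =>
      rw [pow_succ]
      exact (norm_mul_le _ _).trans (mul_le_one₀ ih (norm_nonneg _) (norm_mean_le hfn))
  have h2 : ‖(meanS f hf r - mean f ^ r) * meanS g hg r'‖ ≤ 2 * (r : ℝ) ^ 2 / n :=
    (norm_mul_le _ _).trans ((mul_le_of_le_one_right (norm_nonneg _) hgp).trans
      (norm_meanS_sub_pow hfn r (by omega)))
  have h3 : ‖mean f ^ r * (meanS g hg r' - mean g ^ r')‖ ≤ 2 * (r' : ℝ) ^ 2 / n :=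
    (norm_mul_le _ _).trans ((mul_le_of_le_one_left (norm_nonneg _) (hfp r)).trans
      (norm_meanS_sub_pow hgn r' (by omega)))
  have e : meanST f g hf hg r r' - mean f ^ r * mean g ^ r'
      = (meanST f g hf hg r r' - meanS f hf r * meanS g hg r') +
        ((meanS f hf r - mean f ^ r) * meanS g hg r' +
          mean f ^ r * (meanS g hg r' - mean g ^ r')) := by
    rw [sub_mul, mul_sub]; abel
  rw [e]
  refine (norm_add_le _ _).trans ((add_le_add h1 ((norm_add_le _ _).trans (add_le_add h2 h3))).trans ?_)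
  rw [← add_div, ← add_div]
  gcongr
  nlinarith [mul_nonneg (Nat.cast_nonneg (α := ℝ) r) (Nat.cast_nonneg (α := ℝ) r')]

end

end Vale.Agent.P095.All.Row
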