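import Vale.Agent.P095.All.Row.Elem
import Vale.Agent.P095.All.RowMat.Coef
import Vale.Agent.P095.All.Defs

/-!
# P095 row elements for amenable groups: equivariance

An automorphism moving the marks along `f` carries the element of weights `w` to the element of the
moved weights, and Følner weights move little.
-/

namespace Vale.Agent.P095.All.Row

open Finset Vale.Agent.P095.Amen.Row Vale.Agent.P095.All.RowMat

noncomputable section

variable {F ι : Type} [CStarAlgebra F] {n : ℕ} (M : Marks F ι n)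

theorem map_prodS' {g g' : Fin n → F} (σ : F →⋆ₐ[ℂ] F) (hg : Comm g) (hg' : Comm g')
    (h : ∀ i, σ (g i) = g' i) (S : Finset (Fin n)) : σ (prodS g hg S) = prodS g' hg' S := by
  induction S using Finset.induction_on with
  | empty => rw [prodS_empty, prodS_empty, map_one]
  | insert i S hi ih => rw [prodS_insert hi, prodS_insert hi, map_mul, ih, h]

variable (σ : F →⋆ₐ[ℂ] F) (f : ι → ι)

theorem map_vec (ha : ∀ g i, σ (M.va g i) = M.va (f g) i) (hb : ∀ g i, σ (M.vb g i) = M.vb (f g) i)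
    (hU : ∀ i, σ (M.U i) = M.U i) (N : ℕ) (amp amp' : ℕ → ℝ) (g h : ι) :
    σ (M.vec N amp amp' g h) = M.vec N amp amp' (f g) (f h) := by
  rw [Marks.vec, Marks.vec, map_sum]
  refine sum_congr rfl fun x _ => ?_
  have hh : ∀ S, σ (M.head S) = M.head S := fun S => by
    unfold Marks.head; split_ifs
    · exact hU _
    · exact map_zero σ
  rw [← Complex.coe_smul, map_smul, Complex.coe_smul, Marks.term, Marks.term, Marks.body,
    Marks.body, map_mul, map_mul, hh, Marks.pA, Marks.pA, Marks.pB, Marks.pB,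
    map_prodS' σ _ _ (ha g), map_prodS' σ _ _ (hb h)]

theorem map_p (hs : ∀ i, σ (M.s i) = M.s i) : σ M.p = M.p := map_prodS' σ _ _ hs _

theorem map_p' (hs : ∀ i, σ (M.s' i) = M.s' i) : σ M.p' = M.p' := map_prodS' σ _ _ hs _

variable [DecidableEq ι]

theorem map_elem (ha : ∀ g i, σ (M.va g i) = M.va (f g) i)
    (hb : ∀ g i, σ (M.vb g i) = M.vb (f g) i) (hU : ∀ i, σ (M.U i) = M.U i)
    (hs : ∀ i, σ (M.s i) = M.s i) (N : ℕ) (amp amp' : ℕ → ℝ) {Wd : Finset ι}
    (q : Polynomial ℝ) (w : Wd → ℝ) (e : Equiv.Perm Wd)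
    (he : ∀ g : Wd, w g ≠ 0 → (e g : ι) = f g) (K : Matrix Wd Wd F)
    (hK : ∀ g h : Wd, w g ≠ 0 → w h ≠ 0 → σ (K g h) = K (e g) (e h)) :
    σ (M.elem N amp amp' Wd (coef q w K)) = M.elem N amp amp' Wd (coef q (w ∘ e.symm) K) := by
  have hkey : ∀ g h, σ (coef q w K g h) = coef q (w ∘ e.symm) K (e g) (e h) := fun g h => by
    have h1 := congrFun (congrFun (coef_map σ.toAlgHom q w K) g) h
    rw [Matrix.map_apply] at h1
    have h2 : coef q w (K.map σ.toAlgHom)
        = coef q ((w ∘ e.symm) ∘ e) (K.submatrix e e) := by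
      rw [Function.comp_assoc, Equiv.symm_comp_self, Function.comp_id]
      exact coef_congr fun a b => hK a b
    refine h1.trans ?_
    rw [h2, coef_submatrix]
    rfl
  unfold Marks.elem
  rw [map_sum, ← Equiv.sum_comp e
    (fun g : Wd => ∑ h : Wd, M.vec N amp amp' ↑g ↑h * (coef q (w ∘ e.symm) K g h * M.p))]
  refine sum_congr rfl fun g _ => ?_
  rw [map_sum, ← Equiv.sum_comp e
    (fun h : Wd => M.vec N amp amp' ↑(e g) ↑h * (coef q (w ∘ e.symm) K (e g) h * M.p))]
  refine sum_congr rfl fun h _ => ?_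
  rw [map_mul, map_mul, map_p M σ hs, hkey, map_vec M σ f ha hb hU]
  by_cases hg : w g = 0
  · rw [coef_eq_zero_left (show (w ∘ e.symm) (e g) = 0 by simpa using hg)]
    simp
  by_cases hh : w h = 0
  · rw [coef_eq_zero_right (show (w ∘ e.symm) (e h) = 0 by simpa using hh)]
    simp
  rw [he g hg, he h hh]

/-- The moved Følner weights are close. -/
theorem exists_folner_perm {G : Type} [Group G] [DecidableEq G] (s : G) {K0 Wd : Finset G}
    (hK : K0 ⊆ Wd) (hsK : ∀ g ∈ K0, s * g ∈ Wd) {ε : ℝ}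
    (hε : (Set.ncard {x : G | x ∈ K0 ∧ s * x ∉ K0} : ℝ) ≤ ε * K0.card) (hne : K0.Nonempty) :
    let w : Wd → ℝ := fun g => if (g : G) ∈ K0 then (K0.card : ℝ)⁻¹ else 0
    ∃ e : Equiv.Perm Wd, (∀ g : Wd, w g ≠ 0 → (e g : G) = s * g) ∧
      ∑ g, |w g - (w ∘ e.symm) g| ≤ 2 * ε := by
  intro w
  have hc : (0 : ℝ) < K0.card := by exact_mod_cast hne.card_pos
  let e0 : {g : Wd // (g : G) ∈ K0} ≃ {g : Wd // s⁻¹ * (g : G) ∈ K0} :=
    { toFun := fun g => ⟨⟨s * g.1.1, hsK _ g.2⟩, by simpa using g.2⟩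
      invFun := fun g => ⟨⟨s⁻¹ * g.1.1, hK g.2⟩, g.2⟩
      left_inv := fun g => by simp
      right_inv := fun g => by simp }
  refine ⟨e0.extendSubtype, fun g hg => ?_, ?_⟩
  · have hgK : (g : G) ∈ K0 := by
      by_contra h; exact hg (if_neg h)
    rw [e0.extendSubtype_apply_of_mem g hgK]; rfl
  set e := e0.extendSubtype
  have hv : ∀ g, (w ∘ e.symm) (e g) = w g := fun g => by simp
  have hmem : ∀ g : Wd, (g : G) ∈ K0 → (e g : G) = s * g := fun g hg => by
    rw [e0.extendSubtype_apply_of_mem g hg]; rfl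
  -- both weights have mass one, so the difference is twice its positive part
  have hsum : ∑ g, (w g - (w ∘ e.symm) g) = 0 := by
    rw [sum_sub_distrib, ← Equiv.sum_comp e (w ∘ e.symm)]
    simp
  have habs : ∀ g, |w g - (w ∘ e.symm) g|
      = 2 * max ((w ∘ e.symm) g - w g) 0 + (w g - (w ∘ e.symm) g) := fun g => by
    rcases le_total (w g) ((w ∘ e.symm) g) with h | h
    · rw [abs_of_nonpos (sub_nonpos.2 h), max_eq_left (sub_nonneg.2 h)]; ring
    · rw [abs_of_nonneg (sub_nonneg.2 h), max_eq_right (sub_nonpos.2 h)]; ring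
  rw [sum_congr rfl fun g _ => habs g, sum_add_distrib, hsum, add_zero, ← mul_sum]
  refine mul_le_mul_of_nonneg_left ?_ zero_le_two
  rw [← Equiv.sum_comp e]
  simp only [Function.comp_apply, Equiv.symm_apply_apply]
  have hle : ∀ g : Wd, max (w g - w (e g)) 0
      ≤ if (g : G) ∈ K0 ∧ s * (g : G) ∉ K0 then (K0.card : ℝ)⁻¹ else 0 := fun g => by
    by_cases hg : (g : G) ∈ K0
    · by_cases hsg : s * (g : G) ∈ K0
      · simp [w, hg, hsg, hmem g hg]
      · simp [w, hg, hsg, hmem g hg]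
    · simp only [w, if_neg hg, hg, false_and, if_false, zero_sub]
      refine max_le (neg_nonpos.2 ?_) le_rfl
      split_ifs <;> positivity
  refine (sum_le_sum fun g _ => hle g).trans ?_
  rw [← sum_filter, sum_const, nsmul_eq_mul, ← div_eq_mul_inv, div_le_iff₀ hc]
  refine le_trans (Nat.cast_le.2 ?_) hε
  rw [← card_map ⟨Subtype.val, Subtype.val_injective⟩, ← Set.ncard_coe_finset]
  refine Set.ncard_le_ncard (fun x hx => ?_) (K0.finite_toSet.subset fun x hx => hx.1)
  simp only [coe_map, Function.Embedding.coeFn_mk, Set.mem_image, mem_coe, mem_filter] at hx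
  obtain ⟨g, hg, rfl⟩ := hx
  exact hg.2

end

end Vale.Agent.P095.All.Row
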