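import Vale.Agent.P095.All.Row.Common
import Vale.Agent.P095.Amen.Coin.Ineq
import Vale.Agent.P095.Amen.Coin.Inv
import Mathlib.Analysis.SpecialFunctions.ContinuousFunctionalCalculus.Rpow.Order

/-!
# P095 row elements for amenable groups: estimates against a guarded source

If `x - x'` almost annihilates `v` and everything almost commutes, so does the difference of the two
forms; a square root moves at most as the root of what is under it.
-/

namespace Vale.Agent.P095.All.Row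

open Finset Vale.Agent.P095.Amen.Row Vale.Agent.P095.Amen Vale.Agent.P095.All.RowMat

noncomputable section

variable {F : Type} [CStarAlgebra F]

theorem norm_pow_sub_mul_le {x x' v : F} {B η e : ℝ} (hB : 1 ≤ B) (hx : ‖x‖ ≤ B) (hx' : ‖x'‖ ≤ B)
    (hc : ‖x * x' - x' * x‖ ≤ η) (hv : ‖v‖ ≤ 1) (he : ‖(x - x') * v‖ ≤ e) :
    ∀ k : ℕ, ‖(x ^ (k + 1) - x' ^ (k + 1)) * v‖ ≤ ((k : ℝ) + 1) ^ 2 * B ^ (k + 1) * (η + e) := by
  have hη : 0 ≤ η := (norm_nonneg _).trans hc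
  have he0 : 0 ≤ e := (norm_nonneg _).trans he
  intro k
  induction k with
  | zero =>
    rw [zero_add, pow_one, pow_one]
    refine he.trans ?_
    norm_num
    nlinarith
  | succ k ih =>
    have hk := (⟨hx', hx', hc⟩ : Ctl x B η x' x').pow_succ' k
    have hB0 : 0 ≤ B := zero_le_one.trans hB
    rw [show (x ^ (k + 1 + 1) - x' ^ (k + 1 + 1)) * v = x * ((x ^ (k + 1) - x' ^ (k + 1)) * v) +
        ((x * x' ^ (k + 1) - x' ^ (k + 1) * x) * v + x' ^ (k + 1) * ((x - x') * v)) by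
      rw [pow_succ' x (k + 1), pow_succ' x' (k + 1),
        show x' * x' ^ (k + 1) = x' ^ (k + 1) * x' from (pow_mul_comm' x' (k + 1)).symm]
      noncomm_ring]
    have h1 : ‖x * ((x ^ (k + 1) - x' ^ (k + 1)) * v)‖
        ≤ B * (((k : ℝ) + 1) ^ 2 * B ^ (k + 1) * (η + e)) :=
      (norm_mul_le _ _).trans (mul_le_mul hx ih (norm_nonneg _) hB0)
    have h2 : ‖(x * x' ^ (k + 1) - x' ^ (k + 1) * x) * v‖ ≤ ((k : ℝ) + 1) * B ^ k * η :=
      (norm_mul_le _ _).trans ((mul_le_of_le_one_right (norm_nonneg _) hv).trans hk.near)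
    have h3 : ‖x' ^ (k + 1) * ((x - x') * v)‖ ≤ B ^ (k + 1) * e :=
      (norm_mul_le _ _).trans (mul_le_mul hk.norm he (norm_nonneg _) (by positivity))
    refine (norm_add_le _ _).trans ((add_le_add h1 ((norm_add_le _ _).trans (add_le_add h2 h3))).trans ?_)
    have p1 : B ^ k ≤ B ^ (k + 1 + 1) := pow_le_pow_right₀ hB (by omega)
    have p2 : B ^ (k + 1) ≤ B ^ (k + 1 + 1) := pow_le_pow_right₀ hB (by omega)
    have p0 : 0 ≤ B ^ (k + 1 + 1) := by positivity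
    push_cast
    calc _ ≤ ((k : ℝ) + 1) ^ 2 * B ^ (k + 1 + 1) * (η + e) + (((k : ℝ) + 1) * B ^ (k + 1 + 1) * η +
          B ^ (k + 1 + 1) * e) := by
          rw [← mul_assoc B, mul_left_comm B, ← pow_succ']
          gcongr
      _ ≤ _ := by
          nlinarith [mul_nonneg (mul_nonneg p0 hη) (Nat.cast_nonneg (α := ℝ) k),
            mul_nonneg (mul_nonneg p0 he0) (Nat.cast_nonneg (α := ℝ) k), mul_nonneg p0 hη,
            mul_nonneg p0 he0]

theorem norm_kF_sub_mul_le {x x' v : F} {B η e : ℝ} (hB : 1 ≤ B) (hx : ‖x‖ ≤ B) (hx' : ‖x'‖ ≤ B)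
    (hc : ‖x * x' - x' * x‖ ≤ η) (hv : ‖v‖ ≤ 1) (he : ‖(x - x') * v‖ ≤ e) {N : ℕ} {a : ℕ → ℝ}
    (ha : ∀ r, 0 ≤ a r) (ha1 : ∑ r ∈ range N, a r = 1) :
    ‖(kF N a x - kF N a x') * v‖ ≤ (N : ℝ) ^ 2 * B ^ N * (η + e) := by
  have h0 : 0 ≤ η + e := add_nonneg ((norm_nonneg _).trans hc) ((norm_nonneg _).trans he)
  rw [kF, kF, ← sum_sub_distrib, sum_mul]
  refine (norm_sum_le _ _).trans ((sum_le_sum fun r hr => ?_).trans_eq
    (show ∑ r ∈ range N, a r * ((N : ℝ) ^ 2 * B ^ N * (η + e)) = _ by rw [← sum_mul, ha1, one_mul]))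
  rw [← smul_sub, smul_mul_assoc, norm_smul, Real.norm_of_nonneg (ha r)]
  refine mul_le_mul_of_nonneg_left ((norm_pow_sub_mul_le hB hx hx' hc hv he r).trans ?_) (ha r)
  have hr' := mem_range.1 hr
  have : ((r : ℝ) + 1) ≤ N := by exact_mod_cast hr'
  exact mul_le_mul_of_nonneg_right (mul_le_mul (pow_le_pow_left₀ (by positivity) this 2)
    (pow_le_pow_right₀ hB hr') (by positivity) (by positivity)) h0

/-- Two products of kernels against the source. -/
theorem norm_term_sub_le {A A' B B' d d' v : F} {L ζ M : ℝ} (hv : ‖v‖ ≤ 1) (hd : ‖d‖ ≤ L)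
    (hd' : ‖d'‖ ≤ L) (hB : ‖B‖ ≤ L) (hA' : ‖A'‖ ≤ L) (hM : ‖(A - A') * v‖ ≤ M)
    (hM' : ‖(B - B') * v‖ ≤ M) (c1 : ‖A * B - B * A‖ ≤ ζ) (c2 : ‖A' * B - B * A'‖ ≤ ζ)
    (c3 : ‖A * d' - d' * A‖ ≤ ζ) (c4 : ‖A' * d' - d' * A'‖ ≤ ζ) (c5 : ‖B * d' - d' * B‖ ≤ ζ)
    (c6 : ‖B' * d' - d' * B'‖ ≤ ζ) :
    ‖star v * (d * (A * B - A' * B') * d') * v‖ ≤ 6 * L ^ 2 * ζ + 2 * L ^ 3 * M := by
  have hL : 0 ≤ L := (norm_nonneg _).trans hd
  have hζ : 0 ≤ ζ := (norm_nonneg _).trans c1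
  have hM0 : 0 ≤ M := (norm_nonneg _).trans hM
  have hsub : ∀ {X Y Z : F}, ‖X * Z - Z * X‖ ≤ ζ → ‖Y * Z - Z * Y‖ ≤ ζ →
      ‖(X - Y) * Z - Z * (X - Y)‖ ≤ 2 * ζ := fun {X Y Z} h1 h2 => by
    rw [show (X - Y) * Z - Z * (X - Y) = (X * Z - Z * X) - (Y * Z - Z * Y) by noncomm_ring, two_mul]
    exact (norm_sub_le _ _).trans (add_le_add h1 h2)
  have k1 : ‖(A - A') * (B * (d' * v))‖ ≤ 2 * ζ * L + L * (2 * ζ + L * M) := by
    rw [show (A - A') * (B * (d' * v)) = ((A - A') * B - B * (A - A')) * (d' * v) +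
        B * (((A - A') * d' - d' * (A - A')) * v + d' * ((A - A') * v)) by noncomm_ring]
    have hdv : ‖d' * v‖ ≤ L :=
      (norm_mul_le _ _).trans ((mul_le_of_le_one_right (norm_nonneg _) hv).trans hd')
    refine (norm_add_le _ _).trans (add_le_add ((norm_mul_le _ _).trans
      (mul_le_mul (hsub c1 c2) hdv (norm_nonneg _) (by positivity))) ?_)
    refine (norm_mul_le _ _).trans (mul_le_mul hB ((norm_add_le _ _).trans (add_le_add
      ((norm_mul_le _ _).trans ((mul_le_of_le_one_right (norm_nonneg _) hv).trans (hsub c3 c4))) ?_))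
      (norm_nonneg _) hL)
    exact (norm_mul_le _ _).trans (mul_le_mul hd' hM (norm_nonneg _) hL)
  have k2 : ‖(B - B') * (d' * v)‖ ≤ 2 * ζ + L * M := by
    rw [show (B - B') * (d' * v) = ((B - B') * d' - d' * (B - B')) * v + d' * ((B - B') * v) by
      noncomm_ring]
    refine (norm_add_le _ _).trans (add_le_add
      ((norm_mul_le _ _).trans ((mul_le_of_le_one_right (norm_nonneg _) hv).trans (hsub c5 c6))) ?_)
    exact (norm_mul_le _ _).trans (mul_le_mul hd' hM' (norm_nonneg _) hL)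
  rw [show star v * (d * (A * B - A' * B') * d') * v
    = star v * (d * ((A - A') * (B * (d' * v)) + A' * ((B - B') * (d' * v)))) by noncomm_ring]
  refine (norm_mul_le _ _).trans ((mul_le_of_le_one_left (norm_nonneg _) (by rwa [norm_star])).trans
    ((norm_mul_le _ _).trans ((mul_le_mul hd ((norm_add_le _ _).trans (add_le_add k1
      ((norm_mul_le _ _).trans (mul_le_mul hA' k2 (norm_nonneg _) hL)))) (norm_nonneg _) hL).trans
        (le_of_eq ?_))))
  ring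

/-- The form of two pairs of kernels against the form of one, seen by the source. -/
theorem norm_formW_sandwich {κ : Type} [Fintype κ] (Ka Kb : κ → κ → F) (K d : Matrix κ κ F) {v : F}
    {L ζ M : ℝ} (hv : ‖v‖ ≤ 1) (hd : ∀ g h, ‖d g h‖ ≤ L) (hB : ∀ g h, ‖Kb g h‖ ≤ L)
    (hK : ∀ g h, ‖K g h‖ ≤ L) (hMa : ∀ g h, ‖(Ka g h - K g h) * v‖ ≤ M)
    (hMb : ∀ g h, ‖(Kb g h - K g h) * v‖ ≤ M)
    (c1 : ∀ g h g' h', ‖Ka g h * Kb g' h' - Kb g' h' * Ka g h‖ ≤ ζ)
    (c2 : ∀ g h g' h', ‖K g h * Kb g' h' - Kb g' h' * K g h‖ ≤ ζ)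
    (c3 : ∀ g h g' h', ‖Ka g h * d g' h' - d g' h' * Ka g h‖ ≤ ζ)
    (c4 : ∀ g h g' h', ‖K g h * d g' h' - d g' h' * K g h‖ ≤ ζ)
    (c5 : ∀ g h g' h', ‖Kb g h * d g' h' - d g' h' * Kb g h‖ ≤ ζ) :
    ‖star v * (formW (fun g g' h h' => Ka g g' * Kb h h') d d - fF K d) * v‖
      ≤ (Fintype.card κ : ℝ) ^ 4 * (6 * L ^ 2 * ζ + 2 * L ^ 3 * M) := by
  have e : fF K d = formW (fun g g' h h' => K g g' * K h h') d d := rfl
  rw [e]
  simp only [formW, ← sum_sub_distrib, ← sub_mul, ← mul_sub]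
  simp only [mul_sum, sum_mul]
  refine le_of_le_of_eq (norm_sum_le_of_le univ fun g _ => norm_sum_le_of_le univ fun h _ =>
    norm_sum_le_of_le univ fun g' _ => norm_sum_le_of_le univ fun h' _ =>
      norm_term_sub_le hv (d := star (d g h)) (by rw [norm_star]; exact hd g h) (hd g' h') (hB h h')
        (hK g g') (hMa g g') (hMb h h') (c1 _ _ _ _) (c2 _ _ _ _) (c3 _ _ _ _) (c4 _ _ _ _)
        (c5 _ _ _ _) (c4 _ _ _ _)) ?_
  simp only [sum_const, nsmul_eq_mul, card_univ]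
  ring

/-- Square roots of positive elements move at most as the root of their difference. -/
theorem norm_sqrt_sub_le [PartialOrder F] [StarOrderedRing F] {u w : F} (hu : 0 ≤ u) (hw : 0 ≤ w)
    {c : ℝ} (hc : 0 ≤ c) (huw : ‖u - w‖ ≤ c * c) : ‖CFC.sqrt u - CFC.sqrt w‖ ≤ c := by
  have key : ∀ {X Y : F}, 0 ≤ X → 0 ≤ Y → ‖X - Y‖ ≤ c * c →
      CFC.sqrt X ≤ CFC.sqrt Y + algebraMap ℝ F c := by
    intro X Y hX hY h
    have hs : 0 ≤ CFC.sqrt Y := CFC.sqrt_nonneg Y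
    have hS : 0 ≤ CFC.sqrt Y + algebraMap ℝ F c := add_nonneg hs (algebraMap_nonneg F hc)
    rw [← CFC.sqrt_mul_self _ hS]
    refine CFC.sqrt_le_sqrt _ _ ?_
    have h1 : X ≤ Y + algebraMap ℝ F (c * c) := sub_le_iff_le_add'.1
      (((IsSelfAdjoint.of_nonneg hX).sub (IsSelfAdjoint.of_nonneg hY)).le_algebraMap_norm_self.trans
        (algebraMap_mono F h))
    refine h1.trans ?_
    have e : (CFC.sqrt Y + algebraMap ℝ F c) * (CFC.sqrt Y + algebraMap ℝ F c)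
        = Y + algebraMap ℝ F (c * c) + (2 * c) • CFC.sqrt Y := by
      rw [add_mul, mul_add, mul_add, CFC.sqrt_mul_sqrt_self Y, ← map_mul,
        show algebraMap ℝ F c = c • (1 : F) from Algebra.algebraMap_eq_smul_one c, smul_one_mul,
        mul_smul_comm, mul_one, two_mul, add_smul]
      abel
    rw [e]
    exact le_add_of_nonneg_right (smul_nonneg (by positivity) hs)
  refine Coin.norm_le_of_bounds ((IsSelfAdjoint.of_nonneg (CFC.sqrt_nonneg u)).sub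
    (IsSelfAdjoint.of_nonneg (CFC.sqrt_nonneg w))) hc ?_ (sub_le_iff_le_add'.2 (key hu hw huw))
  rw [neg_le, neg_sub]
  exact sub_le_iff_le_add'.2 (key hw hu (by rwa [norm_sub_rev]))

end

end Vale.Agent.P095.All.Row
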